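import Vale.Agent.Lib.P248R.Santalo

open MeasureTheory Set Function
open scoped ENNReal Topology

set_option linter.unusedSectionVars false

noncomputable section
namespace Vale.Agent.Lib.P248R

open Vale.Agent.Lib.P248

/-! ### Numerics -/

/-- The sequence `(N+1)^(N+1) / N!`. -/
def bb (N : ℕ) : ℝ := ((N:ℝ) + 1) ^ (N + 1) / (N.factorial : ℝ)

lemma bb_succ (N : ℕ) : bb (N + 1) = (((N:ℝ) + 2) / ((N:ℝ) + 1)) ^ (N + 2) * bb N := by
  unfold bb
  rw [Nat.factorial_succ, div_pow]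
  push_cast
  have h1 : ((N:ℝ) + 1) ≠ 0 := by positivity
  have h2 : (N.factorial : ℝ) ≠ 0 := by positivity
  have e : ((N:ℝ) + 1 + 1) = (N:ℝ) + 2 := by ring
  rw [e]
  field_simp
  ring

lemma rk_le_exp (k : ℕ) (hk : 0 < k) :
    (((k:ℝ) + 1) / (k:ℝ)) ^ (k + 1) ≤ Real.exp 1 * (((k:ℝ) + 1) / (k:ℝ)) := by
  have hk' : (0:ℝ) < k := by exact_mod_cast hk
  rw [pow_succ]
  have h1 : 0 ≤ ((k:ℝ) + 1) / (k:ℝ) := by positivity
  refine mul_le_mul_of_nonneg_right ?_ h1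
  have h2 : ((k:ℝ) + 1) / (k:ℝ) ≤ Real.exp (1 / (k:ℝ)) := by
    have := Real.add_one_le_exp (1 / (k:ℝ))
    have e : ((k:ℝ) + 1) / (k:ℝ) = 1 / (k:ℝ) + 1 := by
      field_simp
      ring
    rw [e]
    exact this
  calc (((k:ℝ) + 1) / (k:ℝ)) ^ k ≤ Real.exp (1 / (k:ℝ)) ^ k := pow_le_pow_left₀ h1 h2 k
    _ = Real.exp 1 := by
      rw [← Real.exp_nat_mul]
      congr 1
      field_simp

lemma rk_le_four (N : ℕ) : (((N:ℝ) + 2) / ((N:ℝ) + 1)) ^ (N + 2) ≤ 4 := by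
  rcases Nat.lt_or_ge N 2 with h | h
  · interval_cases N <;> norm_num
  · have h1 := rk_le_exp (N + 1) (Nat.succ_pos N)
    push_cast at h1
    have e : (N:ℝ) + 1 + 1 = (N:ℝ) + 2 := by ring
    rw [e] at h1
    have hN : (2:ℝ) ≤ N := by exact_mod_cast h
    have h2 : ((N:ℝ) + 2) / ((N:ℝ) + 1) ≤ 4 / 3 := by
      rw [div_le_div_iff₀ (by positivity) (by norm_num)]
      linarith
    have h3 := Real.exp_one_lt_d9
    have h4 : (0:ℝ) < Real.exp 1 := Real.exp_pos 1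
    have h5 : 0 ≤ ((N:ℝ) + 2) / ((N:ℝ) + 1) := by positivity
    refine h1.trans ?_
    nlinarith

lemma bb_pos (N : ℕ) : 0 < bb N := by
  unfold bb
  positivity

lemma bb_succ_le (N : ℕ) : bb (N + 1) ≤ 4 * bb N := by
  rw [bb_succ]
  exact mul_le_mul_of_nonneg_right (rk_le_four N) (bb_pos N).le

lemma bb_succ_succ_le (N : ℕ) : bb (N + 2) ≤ 15 * bb N := by
  have hb := bb_pos N
  rw [show N + 2 = N + 1 + 1 from rfl, bb_succ (N + 1), bb_succ N, ← mul_assoc]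
  refine mul_le_mul_of_nonneg_right ?_ hb.le
  push_cast
  have e : (N:ℝ) + 1 + 2 = (N:ℝ) + 3 := by ring
  have e' : (N:ℝ) + 1 + 1 = (N:ℝ) + 2 := by ring
  rw [e, e']
  rcases Nat.eq_zero_or_pos N with h | h
  · subst h
    norm_num
  · -- `r_k r_{k+1} ≤ e² (k+2)/k`
    have h1 := rk_le_exp (N + 1) (Nat.succ_pos N)
    have h2 := rk_le_exp (N + 2) (Nat.succ_pos _)
    push_cast at h1 h2
    have e3 : (N:ℝ) + 1 + 1 = (N:ℝ) + 2 := by ring
    have e4 : (N:ℝ) + 2 + 1 = (N:ℝ) + 3 := by ring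
    rw [e3] at h1
    rw [e4] at h2
    have hN : (1:ℝ) ≤ N := by exact_mod_cast h
    have hp1 : 0 ≤ (((N:ℝ) + 2) / ((N:ℝ) + 1)) ^ (N + 2) := by positivity
    have hp2 : 0 ≤ (((N:ℝ) + 3) / ((N:ℝ) + 2)) ^ (N + 2 + 1) := by positivity
    have hE := Real.exp_one_lt_d9
    have hE0 : (0:ℝ) < Real.exp 1 := Real.exp_pos 1
    have h3 : ((N:ℝ) + 2) / ((N:ℝ) + 1) * (((N:ℝ) + 3) / ((N:ℝ) + 2)) ≤ 2 := by
      have : ((N:ℝ) + 2) / ((N:ℝ) + 1) * (((N:ℝ) + 3) / ((N:ℝ) + 2)) =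
          ((N:ℝ) + 3) / ((N:ℝ) + 1) := by
        field_simp
      rw [this, div_le_iff₀ (by positivity)]
      linarith
    calc (((N:ℝ) + 3) / ((N:ℝ) + 2)) ^ (N + 2 + 1) * (((N:ℝ) + 2) / ((N:ℝ) + 1)) ^ (N + 2)
        ≤ (Real.exp 1 * (((N:ℝ) + 3) / ((N:ℝ) + 2))) *
            (Real.exp 1 * (((N:ℝ) + 2) / ((N:ℝ) + 1))) :=
          mul_le_mul h2 h1 hp1 (by positivity)
      _ = Real.exp 1 ^ 2 * (((N:ℝ) + 2) / ((N:ℝ) + 1) * (((N:ℝ) + 3) / ((N:ℝ) + 2))) := by ring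
      _ ≤ Real.exp 1 ^ 2 * 2 := by gcongr
      _ ≤ 15 := by nlinarith

lemma bb_le (p q : ℕ) : bb (p + 2 * q) ≤ 4 ^ p * 15 ^ q := by
  induction q with
  | zero =>
    induction p with
    | zero => simp [bb]
    | succ p ih =>
      simp only [Nat.mul_zero, Nat.add_zero, pow_zero, mul_one] at ih ⊢
      have := bb_succ_le p
      rw [pow_succ]
      linarith
  | succ q ih =>
    have h := bb_succ_succ_le (p + 2 * q)
    have e : p + 2 * (q + 1) = p + 2 * q + 2 := by ring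
    rw [e, pow_succ]
    nlinarith

variable {J I : Type*} [Fintype J] [Fintype I] [DecidableEq J] [DecidableEq I]
variable {m : I → ℕ}

/-- A lower bound for the weight of a plane. -/
lemma kappa_lower (hm : ∀ i, 3 ≤ m i) (i : I) (hi : 5 ≤ m i) {X0 : ℝ}
    (hX0 : (Real.pi / (m i : ℝ)) ^ 2 ≤ X0) (hX1 : X0 ≤ 1) :
    2 * Real.pi ^ 2 * (1 - X0 / 2) * (1 - 5 / 48 * X0) ≤
      4 * (m i : ℝ) ^ 2 * Real.cos (ha m i) * (1 - Real.cos (ha m i)) := by
  have hm0 : (0:ℝ) < m i := by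
    have : 0 < m i := by linarith [hm i]
    exact_mod_cast this
  set x := ha m i with hx
  have hxdef : x = Real.pi / (m i : ℝ) := rfl
  have hx0 : 0 < x := ha_pos hm i
  rw [← hxdef] at hX0
  set X := x ^ 2 with hXdef
  have hX00 : 0 < X := by positivity
  have hxle : |x| ≤ 1 := by
    rw [abs_of_pos hx0]
    nlinarith
  have hcos := Real.cos_bound hxle
  rw [abs_of_pos hx0] at hcos
  have hc2 := (abs_le.1 hcos).2
  have hlow : 1 - X / 2 ≤ Real.cos x := Real.one_sub_sq_div_two_le_cos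
  have hup : X / 2 * (1 - 5 / 48 * X) ≤ 1 - Real.cos x := by
    have e : x ^ 4 = X ^ 2 := by rw [hXdef]; ring
    have hc3 := (abs_le.1 hcos).1
    rw [e] at hc3
    nlinarith
  have hmX : (m i : ℝ) ^ 2 * X = Real.pi ^ 2 := by
    rw [hXdef, hxdef]
    field_simp
  have hA : 0 ≤ 1 - X / 2 := by nlinarith
  have hB : 0 ≤ 1 - 5 / 48 * X := by nlinarith
  have hA0 : 0 ≤ 1 - X0 / 2 := by nlinarith
  have hB0 : 0 ≤ 1 - 5 / 48 * X0 := by nlinarith
  have h1 : (1 - X0 / 2) * (1 - 5 / 48 * X0) ≤ (1 - X / 2) * (1 - 5 / 48 * X) :=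
    mul_le_mul (by linarith) (by linarith) hB0 hA
  have h2 : (1 - X / 2) * (X / 2 * (1 - 5 / 48 * X)) ≤ Real.cos x * (1 - Real.cos x) :=
    mul_le_mul hlow hup (by positivity) (by linarith)
  have h3 : 4 * (m i : ℝ) ^ 2 * ((1 - X / 2) * (X / 2 * (1 - 5 / 48 * X))) ≤
      4 * (m i : ℝ) ^ 2 * (Real.cos x * (1 - Real.cos x)) :=
    mul_le_mul_of_nonneg_left h2 (by positivity)
  have h4 : 4 * (m i : ℝ) ^ 2 * ((1 - X / 2) * (X / 2 * (1 - 5 / 48 * X))) =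
      2 * Real.pi ^ 2 * ((1 - X / 2) * (1 - 5 / 48 * X)) := by
    rw [← hmX]
    ring
  have h5 : 2 * Real.pi ^ 2 * ((1 - X0 / 2) * (1 - 5 / 48 * X0)) ≤
      2 * Real.pi ^ 2 * ((1 - X / 2) * (1 - 5 / 48 * X)) :=
    mul_le_mul_of_nonneg_left h1 (by positivity)
  calc 2 * Real.pi ^ 2 * (1 - X0 / 2) * (1 - 5 / 48 * X0)
      = 2 * Real.pi ^ 2 * ((1 - X0 / 2) * (1 - 5 / 48 * X0)) := by ring
    _ ≤ _ := h5
    _ = 4 * (m i : ℝ) ^ 2 * ((1 - X / 2) * (X / 2 * (1 - 5 / 48 * X))) := h4.symm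
    _ ≤ 4 * (m i : ℝ) ^ 2 * (Real.cos x * (1 - Real.cos x)) := h3
    _ = _ := by ring

lemma pi_div_sq_le {k : ℕ} {n : ℕ} (hk : 0 < k) (h : k ≤ n) :
    (Real.pi / (n : ℝ)) ^ 2 ≤ (3.15 / (k:ℝ)) ^ 2 := by
  have hk' : (0:ℝ) < k := by exact_mod_cast hk
  have hn' : (k:ℝ) ≤ n := by exact_mod_cast h
  have hn0 : (0:ℝ) < n := by linarith
  have hpi := Real.pi_lt_d2
  have hpi0 := Real.pi_pos
  have h1 : Real.pi / (n:ℝ) ≤ 3.15 / (k:ℝ) := by
    rw [div_le_div_iff₀ hn0 hk']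
    nlinarith
  exact pow_le_pow_left₀ (by positivity) h1 2

lemma kappa_gt_15 (hm : ∀ i, 3 ≤ m i) (i : I) (hi : 5 ≤ m i) :
    15 < 4 * (m i : ℝ) ^ 2 * Real.cos (ha m i) * (1 - Real.cos (ha m i)) := by
  have h1 := pi_div_sq_le (k := 5) (by norm_num) hi
  have h2 := kappa_lower hm i hi h1 (by norm_num)
  refine lt_of_lt_of_le ?_ h2
  have hpi := Real.pi_gt_d2
  have hpi2 : (9.8596:ℝ) ≤ Real.pi ^ 2 := by nlinarith
  norm_num
  nlinarith

lemma kappa_gt_16 (hm : ∀ i, 3 ≤ m i) (i : I) (hi : 6 ≤ m i) :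
    16 < 4 * (m i : ℝ) ^ 2 * Real.cos (ha m i) * (1 - Real.cos (ha m i)) := by
  have h1 := pi_div_sq_le (k := 6) (by norm_num) hi
  have h2 := kappa_lower hm i (by linarith) h1 (by norm_num)
  refine lt_of_lt_of_le ?_ h2
  have hpi := Real.pi_gt_d2
  have hpi2 : (9.8596:ℝ) ≤ Real.pi ^ 2 := by nlinarith
  norm_num
  nlinarith

/-- The constant rewritten. -/
lemma CC_eq (m : I → ℕ) :
    CC m J = 4 ^ Fintype.card J *
      ∏ i : I, (4 * (m i : ℝ) ^ 2 * Real.cos (ha m i) * (1 - Real.cos (ha m i))) := by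
  unfold CC GG
  rw [mul_pow, Finset.prod_const, Finset.card_univ, ← pow_mul, mul_comm (Fintype.card J) 2, pow_mul,
    ← Finset.prod_pow]
  norm_num
  rw [mul_comm _ ((4:ℝ) ^ Fintype.card J), mul_assoc, ← Finset.prod_mul_distrib]
  congr 1
  refine Finset.prod_congr rfl fun i _ => ?_
  ring

/-- The polar of `K - z` is bounded when `z` is an interior point. -/
lemma polar_sub_bounded {K : Set (Ix J I → ℝ)} {z : Ix J I → ℝ} (hz : z ∈ interior K) :
    volume {y : Ix J I → ℝ | ∀ x ∈ K, dot (x - z) y ≤ 1} ≠ ⊤ := by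
  obtain ⟨ε, hε, hball⟩ := Metric.mem_nhds_iff.1 (mem_interior_iff_mem_nhds.1 hz)
  set r := ε / 2 with hr
  have hr0 : 0 < r := by positivity
  have hbd : ∀ y ∈ {y : Ix J I → ℝ | ∀ x ∈ K, dot (x - z) y ≤ 1}, ∀ d, |y d| ≤ 1 / r := by
    intro y hy d
    have key : ∀ t : ℝ, |t| ≤ r → t * y d ≤ 1 := by
      intro t ht
      have hx : z + update (0 : Ix J I → ℝ) d t ∈ K := by
        apply hball
        rw [Metric.mem_ball, dist_eq_norm]
        have : z + update (0 : Ix J I → ℝ) d t - z = update (0 : Ix J I → ℝ) d t := by abel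
        rw [this]
        have h2 : ‖update (0 : Ix J I → ℝ) d t‖ ≤ r := by
          refine (pi_norm_le_iff_of_nonneg hr0.le).2 fun d' => ?_
          by_cases e : d' = d
          · subst e; simpa using ht
          · simpa [update_of_ne e] using hr0.le
        rw [hr] at h2
        linarith
      have := hy _ hx
      have e : z + update (0 : Ix J I → ℝ) d t - z = update (0 : Ix J I → ℝ) d t := by abel
      rwa [e, dot_single_left] at this
    have h1 := key r (by rw [abs_of_pos hr0])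
    have h2 := key (-r) (by rw [abs_neg, abs_of_pos hr0])
    rw [le_div_iff₀ hr0]
    rcases abs_cases (y d) with ⟨e, _⟩ | ⟨e, _⟩ <;> rw [e] <;> nlinarith
  have hc : IsCompact (Set.pi univ (fun _ : Ix J I => Icc (-(1 / r)) (1 / r))) :=
    isCompact_univ_pi (fun _ => isCompact_Icc)
  refine (lt_of_le_of_lt (measure_mono ?_) hc.measure_lt_top).ne
  intro y hy d _
  exact abs_le.1 (hbd y hy d)

/-- **Main bound for all centres.** -/
theorem main_bound (hm : ∀ i, 3 ≤ m i) {K : Set (Ix J I → ℝ)} (hconv : Convex ℝ K)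
    (hcomp : IsCompact K) (hint : (interior K).Nonempty)
    (hflip : ∀ j, ∀ x ∈ K, flipAt (Sum.inl j) x ∈ K)
    (hrot : ∀ i, ∀ x ∈ K, rot2 (A i) (B i) (al m i) x ∈ K)
    {z : Ix J I → ℝ} (hz : z ∈ interior K) :
    CC m J / ((Fintype.card (Ix J I)).factorial : ℝ) ≤
      (volume K).toReal * (volume {y : Ix J I → ℝ | ∀ x ∈ K, dot (x - z) y ≤ 1}).toReal := by
  have h1 := body_ineq hm hconv hcomp hint hflip hrot
  refine h1.trans ?_
  refine mul_le_mul_of_nonneg_left ?_ ENNReal.toReal_nonneg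
  have hrot' : ∀ i, RotInv m i K := fun i => rotInv_of_fwd (hrot i)
  have h0 := zero_mem_interior hm hconv hint hflip hrot'
  have hfin0 : volume {y : Ix J I → ℝ | ∀ x ∈ K, dot x y ≤ 1} ≠ ⊤ := by
    have := polar_sub_bounded h0
    simpa using this
  exact ENNReal.toReal_mono (polar_sub_bounded hz)
    (polar_le_polar_sub hm hconv hcomp hflip hrot' (interior_subset h0) (interior_subset hz) hfin0)

/-- Comparison of products of plane weights. -/
lemma prod_kappa_ge (hm : ∀ i, 3 ≤ m i) {a : ℝ} (ha0 : 0 ≤ a)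
    (h : ∀ i, a < 4 * (m i : ℝ) ^ 2 * Real.cos (ha m i) * (1 - Real.cos (ha m i))) :
    a ^ Fintype.card I ≤
      ∏ i : I, (4 * (m i : ℝ) ^ 2 * Real.cos (ha m i) * (1 - Real.cos (ha m i))) := by
  rw [← Finset.card_univ, ← Finset.prod_const]
  exact Finset.prod_le_prod (fun _ _ => ha0) fun i _ => (h i).le

lemma prod_kappa_gt (hm : ∀ i, 3 ≤ m i) {a : ℝ} (ha0 : 0 < a) [hI : Nonempty I]
    (h : ∀ i, a < 4 * (m i : ℝ) ^ 2 * Real.cos (ha m i) * (1 - Real.cos (ha m i))) :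
    a ^ Fintype.card I <
      ∏ i : I, (4 * (m i : ℝ) ^ 2 * Real.cos (ha m i) * (1 - Real.cos (ha m i))) := by
  rw [← Finset.card_univ, ← Finset.prod_const]
  exact Finset.prod_lt_prod_of_nonempty (fun _ _ => ha0) (fun i _ => h i) Finset.univ_nonempty

end Vale.Agent.Lib.P248R
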