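import Vale.Agent.Lib.P248R.Recursion

open MeasureTheory Set Function
open scoped ENNReal

set_option linter.unusedSectionVars false

noncomputable section
namespace Vale.Agent.Lib.P248R

open Vale.Agent.Lib.P248

variable {J I : Type*} [Fintype J] [Fintype I] [DecidableEq J] [DecidableEq I]
variable {m : I → ℕ} {S : Finset (Ix J I)} {K : Set (Ix J I → ℝ)}

/-- Weights of the coordinates. -/
def w0 (m : I → ℕ) (c : Ix J I) : ℝ :=
  match c with
  | Sum.inl _ => 1
  | Sum.inr (_, false) => 1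
  | Sum.inr (i, true) => 4 * Real.cos (ha m i) * (1 - Real.cos (ha m i))

/-- Product of the weights. -/
def WW (m : I → ℕ) (S : Finset (Ix J I)) : ℝ := ∏ c ∈ S, w0 m c

/-- The target bound at the active set `S`. -/
def TT (m : I → ℕ) (S : Finset (Ix J I)) : ℝ := WW m S / (S.card.factorial : ℝ)

/-- Volume product of the parts in the cone. -/
def QQ (m : I → ℕ) (S : Finset (Ix J I)) (K : Set (Ix J I → ℝ)) : ℝ :=
  (vol S (K ∩ Cone m S)).toReal * (vol S (Polar S K ∩ Cone m S)).toReal

/-- Facet measure in real form. -/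
def phi (m : I → ℕ) (S : Finset (Ix J I)) (L : Set (Ix J I → ℝ)) (c : Ix J I) : ℝ :=
  (vol (S.erase (rm S c)) (Bas m S L (rm S c))).toReal

lemma phi_nonneg (m : I → ℕ) (S : Finset (Ix J I)) (L : Set (Ix J I → ℝ)) (c : Ix J I) :
    0 ≤ phi m S L c := ENNReal.toReal_nonneg

lemma phi_A (m : I → ℕ) {S : Finset (Ix J I)} (L : Set (Ix J I → ℝ)) {i : I} (h : B i ∈ S) :
    phi m S L (A i) = phi m S L (B i) := by
  unfold phi
  rw [rm_A h, rm_plain (plain_B S i)]

lemma w0_pos (hm : ∀ i, 3 ≤ m i) (c : Ix J I) : 0 < w0 m c := by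
  rcases c with j | ⟨i, b⟩
  · simp [w0]
  · cases b
    · simp [w0]
    · have h1 := half_le_cos_ha hm i
      have h2 : Real.cos (ha m i) < 1 := by
        have h3 := Real.sin_sq_add_cos_sq (ha m i)
        have h4 := sin_ha_pos hm i
        nlinarith
      have h5 : 0 < 4 * Real.cos (ha m i) * (1 - Real.cos (ha m i)) :=
        mul_pos (by linarith) (by linarith)
      exact h5

lemma WW_pos (hm : ∀ i, 3 ≤ m i) (S : Finset (Ix J I)) : 0 < WW m S :=
  Finset.prod_pos fun c _ => w0_pos hm c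

lemma TT_pos (hm : ∀ i, 3 ≤ m i) (S : Finset (Ix J I)) : 0 < TT m S := by
  have := WW_pos hm S
  unfold TT
  positivity

lemma WW_erase {r : Ix J I} (hr : r ∈ S) : w0 m r * WW m (S.erase r) = WW m S :=
  Finset.mul_prod_erase S (w0 m) hr

/-- real form of the pyramid inequality -/
lemma pyramid_real (hm : ∀ i, 3 ≤ m i) (hcl : Closed S) {z : Ix J I → ℝ} {L : Set (Ix J I → ℝ)}
    (hL : MeasurableSet L) (hconv : Convex ℝ L) (hinv : ∀ c ∈ S, ∀ y ∈ L, gam m S c y ∈ L)
    (hzL : z ∈ L) (hzS : ∀ d, d ∉ S → z d = 0) (hz : ∀ c ∈ S, 0 ≤ ell m S c z) {R : ℝ}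
    (hbd : ∀ x ∈ L, ∀ d, |x d| ≤ R) :
    ∑ c ∈ S, ell m S c z * phi m S L c ≤ (S.card : ℝ) * (vol S (L ∩ Cone m S)).toReal := by
  have h := pyramid_ineq hm hcl hL hconv hinv hzL hzS hz
  have hfin : vol S (L ∩ Cone m S) ≠ ⊤ :=
    (vol_lt_top S (R := R) fun x hx d => hbd x hx.1 d).ne
  have hfin2 : (S.card : ℝ≥0∞) * vol S (L ∩ Cone m S) ≠ ⊤ :=
    ENNReal.mul_ne_top (ENNReal.natCast_ne_top _) hfin
  have h2 : ENNReal.ofReal (∑ c ∈ S, ell m S c z * phi m S L c) ≤
      (S.card : ℝ≥0∞) * vol S (L ∩ Cone m S) := by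
    refine le_trans ?_ h
    rw [ENNReal.ofReal_sum_of_nonneg (fun c hc => mul_nonneg (hz c hc) (phi_nonneg _ _ _ _))]
    refine Finset.sum_le_sum fun c hc => ?_
    rw [ENNReal.ofReal_mul (hz c hc)]
    gcongr
    exact ENNReal.ofReal_toReal_le
  have h3 := (ENNReal.ofReal_le_iff_le_toReal hfin2).1 h2
  rwa [ENNReal.toReal_mul, ENNReal.toReal_natCast] at h3

/-- The linear functional vector. -/
def wv (m : I → ℕ) (S : Finset (Ix J I)) (p : Ix J I → ℝ) (c : Ix J I) : ℝ :=
  if c ∈ S then
    match c with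
    | Sum.inl j => p (Sum.inl j)
    | Sum.inr (i, false) => if B i ∈ S then p (B i) * Real.sin (al m i) else p (A i)
    | Sum.inr (i, true) => p (B i) * (1 - Real.cos (al m i))
  else 0

lemma wv_notMem {c : Ix J I} (h : c ∉ S) (p : Ix J I → ℝ) : wv m S p c = 0 := by
  simp [wv, h]

lemma wv_single {c : Ix J I} (hc : c ∈ S) (hs : Single S c) (p : Ix J I → ℝ) :
    wv m S p c = p c := by
  rcases hs with ⟨j, rfl⟩ | ⟨i, rfl, h⟩
  · simp [wv, hc]
  · simp [wv, hc, h]

lemma wv_B {i : I} (h : B i ∈ S) (p : Ix J I → ℝ) :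
    wv m S p (B i) = p (B i) * (1 - Real.cos (al m i)) := by
  simp [wv, h]

lemma wv_A {i : I} (hcl : Closed S) (h : B i ∈ S) (p : Ix J I → ℝ) :
    wv m S p (A i) = p (B i) * Real.sin (al m i) := by
  have := hcl i h
  simp [wv, h, this]

lemma dot_wv (hcl : Closed S) {p : Ix J I → ℝ} (hp : ∀ i, B i ∈ S → p (A i) = p (B i))
    (x : Ix J I → ℝ) : dot x (wv m S p) = ∑ c ∈ S, ell m S c x * p c := by
  have h0 : ∑ c ∈ S, ell m S c x * p c =
      ∑ c, (if c ∈ S then ell m S c x * p c else 0) := by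
    rw [Finset.sum_ite_mem, Finset.univ_inter]
  rw [h0]
  unfold dot
  simp only [Fintype.sum_sum_type, Fintype.sum_prod_type, Fintype.sum_bool]
  congr 1
  · refine Finset.sum_congr rfl fun j _ => ?_
    by_cases h : (Sum.inl j : Ix J I) ∈ S
    · simp [wv, ell, h]
    · simp [wv, h]
  · refine Finset.sum_congr rfl fun i _ => ?_
    by_cases hB : B i ∈ S
    · have hA := hcl i hB
      have e1 := wv_A (m := m) hcl hB p
      have e2 := wv_B (m := m) hB p
      have e3 := ell_A (m := m) hB x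
      have e4 : ell m S (B i) x = x (B i) := ell_plain (plain_B S i) x
      have e5 := hp i hB
      show x (B i) * wv m S p (B i) + x (A i) * wv m S p (A i) =
        (if B i ∈ S then ell m S (B i) x * p (B i) else 0) +
        (if A i ∈ S then ell m S (A i) x * p (A i) else 0)
      rw [if_pos hB, if_pos hA, e1, e2, e3, e4, e5]
      ring
    · show x (B i) * wv m S p (B i) + x (A i) * wv m S p (A i) =
        (if B i ∈ S then ell m S (B i) x * p (B i) else 0) +
        (if A i ∈ S then ell m S (A i) x * p (A i) else 0)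
      rw [if_neg hB, wv_notMem hB, mul_zero, zero_add, zero_add]
      by_cases hA : A i ∈ S
      · have hpl : Plain S (A i) := by
          intro i' hi'
          have : i = i' := by simpa [A] using hi'
          rwa [← this]
        rw [if_pos hA, wv_single hA (Or.inr ⟨i, rfl, hB⟩), ell_plain hpl]
      · rw [if_neg hA, wv_notMem hA, mul_zero]

lemma ell_wv_single {c : Ix J I} (hc : c ∈ S) (hs : Single S c) (p : Ix J I → ℝ) :
    ell m S c (wv m S p) = p c := by
  rw [ell_plain hs.plain, wv_single hc hs]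

lemma ell_wv_B {i : I} (h : B i ∈ S) (p : Ix J I → ℝ) :
    ell m S (B i) (wv m S p) = p (B i) * (1 - Real.cos (al m i)) := by
  rw [ell_plain (plain_B S i), wv_B h]

lemma ell_wv_A {i : I} (hcl : Closed S) (h : B i ∈ S) (p : Ix J I → ℝ) :
    ell m S (A i) (wv m S p) = p (B i) * (1 - Real.cos (al m i)) := by
  rw [ell_A h, wv_A hcl h, wv_B h]
  have := Real.sin_sq_add_cos_sq (al m i)
  linear_combination (p (B i)) * this

lemma ell_smul (m : I → ℕ) (S : Finset (Ix J I)) (c : Ix J I) (r : ℝ) (u : Ix J I → ℝ) :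
    ell m S c (r • u) = r * ell m S c u := by
  rcases plain_or S c with h | ⟨i, rfl, h⟩
  · simp only [ell_plain h]; simp
  · simp only [ell_A h]; simp; ring

/-- Optimality gives the sign conditions for the apex. -/
lemma ell_nonneg_of_max (hm : ∀ i, 3 ≤ m i) (hK : InClass m S K) (hcl : Closed S)
    {p : Ix J I → ℝ} (hp : ∀ c ∈ S, 0 < p c) {y : Ix J I → ℝ} (hy : y ∈ K)
    (hmax : ∀ x ∈ K, dot x (wv m S p) ≤ dot y (wv m S p)) {c : Ix J I} (hc : c ∈ S) :
    0 ≤ ell m S c y := by
  rcases tri S c with hs | ⟨i, rfl⟩ | ⟨i, rfl, hB⟩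
  · obtain ⟨t, ht, hshr⟩ := hK.shrink c hc hs
    have h := hmax _ (hshr y hy)
    rw [dot_update_left, wv_single hc hs] at h
    rw [ell_plain hs.plain]
    have hpc := hp c hc
    by_contra hcon
    push Not at hcon
    have h1 : 0 < (1 + t) * (-y c) * p c := mul_pos (mul_pos (by linarith) (by linarith)) hpc
    nlinarith
  · have hB : B i ∈ S := hc
    have h := hmax _ (hK.rot_fwd hB hy)
    rw [dot_rot2_left (A_ne_B i i), wv_A hcl hB, wv_B hB] at h
    rw [ell_plain (plain_B S i)]
    have hsq := Real.sin_sq_add_cos_sq (al m i)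
    have hC := cos_al_lt_one hm i
    have hpos : 0 < p (B i) * (1 - Real.cos (al m i)) := mul_pos (hp _ hc) (by linarith)
    have e : (Real.cos (al m i) * y (A i) - Real.sin (al m i) * y (B i) - y (A i)) *
          (p (B i) * Real.sin (al m i)) +
        (Real.sin (al m i) * y (A i) + Real.cos (al m i) * y (B i) - y (B i)) *
          (p (B i) * (1 - Real.cos (al m i))) =
        - 2 * (p (B i) * (1 - Real.cos (al m i))) * y (B i) := by
      linear_combination (- p (B i) * y (B i)) * hsq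
    have h2 : - 2 * (p (B i) * (1 - Real.cos (al m i))) * y (B i) ≤ 0 := by linarith
    by_contra hcon
    push Not at hcon
    nlinarith [mul_pos_of_neg_of_neg hcon (neg_neg_of_pos hpos)]
  · have h := hmax _ (hK.rot_bwd hm hB hy)
    rw [dot_rot2_left (A_ne_B i i), wv_A hcl hB, wv_B hB, Real.cos_neg, Real.sin_neg] at h
    rw [ell_A hB]
    have hsq := Real.sin_sq_add_cos_sq (al m i)
    have hC := cos_al_lt_one hm i
    have hpos : 0 < p (B i) * (1 - Real.cos (al m i)) := mul_pos (hp _ hB) (by linarith)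
    have e : (Real.cos (al m i) * y (A i) - -Real.sin (al m i) * y (B i) - y (A i)) *
          (p (B i) * Real.sin (al m i)) +
        (-Real.sin (al m i) * y (A i) + Real.cos (al m i) * y (B i) - y (B i)) *
          (p (B i) * (1 - Real.cos (al m i))) =
        - 2 * (p (B i) * (1 - Real.cos (al m i))) *
          (y (A i) * Real.sin (al m i) - y (B i) * Real.cos (al m i)) := by
      linear_combination (p (B i) * y (B i)) * hsq
    have h2 : - 2 * (p (B i) * (1 - Real.cos (al m i))) *
        (y (A i) * Real.sin (al m i) - y (B i) * Real.cos (al m i)) ≤ 0 := by linarith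
    by_contra hcon
    push Not at hcon
    nlinarith [mul_pos_of_neg_of_neg hcon (neg_neg_of_pos hpos)]

lemma pos_of_mul_pos_nonneg {a b : ℝ} (h : 0 < a * b) (ha : 0 ≤ a) : 0 < a := by
  rcases ha.eq_or_lt with e | e
  · rw [← e, zero_mul] at h
    exact absurd h (lt_irrefl _)
  · exact e

/-- Recursion step. -/
theorem step (hm : ∀ i, 3 ≤ m i) (hcl : Closed S) (hK : InClass m S K) (hne : S.Nonempty)
    (IH : ∀ S', S' ⊂ S → Closed S' → ∀ K', InClass m S' K' → TT m S' ≤ QQ m S' K') :
    TT m S ≤ QQ m S K := by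
  obtain ⟨Rp, hRp⟩ := polar_bound hK
  obtain ⟨RK, hRK⟩ := hK.bounded
  have hlow_single : ∀ c ∈ S, Single S c →
      TT m (S.erase c) ≤ phi m S K c * phi m S (Polar S K) c := by
    intro c hc hs
    have hrm : rm S c = c := rm_plain hs.plain
    have h1 := IH (S.erase c) (Finset.erase_ssubset hc) (closed_erase_single hcl hs) _
      (hK.erase_single hs)
    refine h1.trans ?_
    unfold QQ phi Bas
    rw [hrm]
    apply mul_le_mul_of_nonneg_left _ ENNReal.toReal_nonneg
    apply ENNReal.toReal_mono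
    · exact (vol_lt_top _ (R := Rp) fun x hx d => hRp x hx.1.1 d).ne
    · exact vol_mono _ fun y hy => ⟨polar_single_subset hK hc hs hy.1, hy.2⟩
  have hlow_block : ∀ i, B i ∈ S →
      c0 m i * TT m (S.erase (B i)) ≤ phi m S K (B i) * phi m S (Polar S K) (B i) := by
    intro i hB
    have hrm : rm S (B i) = B i := rm_plain (plain_B S i)
    have h1 := IH (S.erase (B i)) (Finset.erase_ssubset hB) (closed_erase_B hcl i) _
      (hK.erase_B hm hB)
    have h2 := vol_polar_block hm hK hcl hB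
    unfold QQ at h1
    have h3 : c0 m i * (vol (S.erase (B i)) (Polar (S.erase (B i)) (K ∩ {x | x (B i) = 0}) ∩
        Cone m (S.erase (B i)))).toReal ≤ phi m S (Polar S K) (B i) := by
      unfold phi
      rw [hrm]
      have hfin : vol (S.erase (B i)) (Bas m S (Polar S K) (B i)) ≠ ⊤ :=
        (vol_lt_top _ (R := Rp) fun x hx d => hRp x hx.1.1 d).ne
      have h4 := ENNReal.toReal_mono hfin h2
      rwa [ENNReal.toReal_mul, ENNReal.toReal_ofReal (c0_pos hm i).le] at h4
    have hv1 : phi m S K (B i) = (vol (S.erase (B i)) ((K ∩ {x | x (B i) = 0}) ∩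
        Cone m (S.erase (B i)))).toReal := by
      unfold phi Bas
      rw [hrm]
    rw [hv1]
    have hn1 : 0 ≤ (vol (S.erase (B i)) ((K ∩ {x | x (B i) = 0}) ∩
        Cone m (S.erase (B i)))).toReal := ENNReal.toReal_nonneg
    have hc0 := c0_pos hm i
    calc c0 m i * TT m (S.erase (B i))
        ≤ c0 m i * ((vol (S.erase (B i)) ((K ∩ {x | x (B i) = 0}) ∩
            Cone m (S.erase (B i)))).toReal * (vol (S.erase (B i))
            (Polar (S.erase (B i)) (K ∩ {x | x (B i) = 0}) ∩ Cone m (S.erase (B i)))).toReal) := by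
          gcongr
      _ = (vol (S.erase (B i)) ((K ∩ {x | x (B i) = 0}) ∩ Cone m (S.erase (B i)))).toReal *
          (c0 m i * (vol (S.erase (B i))
            (Polar (S.erase (B i)) (K ∩ {x | x (B i) = 0}) ∩ Cone m (S.erase (B i)))).toReal) := by
          ring
      _ ≤ _ := mul_le_mul_of_nonneg_left h3 hn1
  have hpos : ∀ c ∈ S, 0 < phi m S K c := by
    intro c hc
    rcases tri S c with hs | ⟨i, rfl⟩ | ⟨i, rfl, hB⟩
    · have h1 := hlow_single c hc hs
      have h2 := TT_pos hm (S.erase c)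
      exact pos_of_mul_pos_nonneg (lt_of_lt_of_le h2 h1) (phi_nonneg _ _ _ _)
    · have h1 := hlow_block i hc
      have h2 := TT_pos hm (S.erase (B i))
      have h3 := c0_pos hm i
      exact pos_of_mul_pos_nonneg (lt_of_lt_of_le (by positivity) h1) (phi_nonneg _ _ _ _)
    · rw [phi_A m K hB]
      have h1 := hlow_block i hB
      have h2 := TT_pos hm (S.erase (B i))
      have h3 := c0_pos hm i
      exact pos_of_mul_pos_nonneg (lt_of_lt_of_le (by positivity) h1) (phi_nonneg _ _ _ _)
  have hpA : ∀ i, B i ∈ S → phi m S K (A i) = phi m S K (B i) := fun i h => phi_A m K h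
  obtain ⟨y, hy, hmax⟩ := hK.comp.exists_isMaxOn ⟨0, hK.zero_mem⟩
    ((continuous_dot_left (wv m S (phi m S K))).continuousOn (s := K))
  have hmax' : ∀ x ∈ K, dot x (wv m S (phi m S K)) ≤ dot y (wv m S (phi m S K)) :=
    fun x hx => hmax hx
  have hell : ∀ c ∈ S, 0 ≤ ell m S c y := fun c hc =>
    ell_nonneg_of_max hm hK hcl hpos hy hmax' hc
  have h1 := pyramid_real hm hcl hK.comp.measurableSet hK.conv
    (fun c _ y hy => hK.gam_mem hy) hy (hK.supp y hy) hell hRK
  rw [← dot_wv hcl hpA] at h1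
  -- positivity of the maximum
  obtain ⟨cc, hc0⟩ := hne
  have hwc0 : 0 < wv m S (phi m S K) cc := by
    rcases tri S cc with hs | ⟨i, rfl⟩ | ⟨i, rfl, hB⟩
    · rw [wv_single hc0 hs]; exact hpos _ hc0
    · rw [wv_B hc0]
      exact mul_pos (hpos _ hc0) (by linarith [cos_al_lt_one hm i])
    · rw [wv_A hcl hB]
      exact mul_pos (hpos _ hB) (sin_al_pos hm i)
  obtain ⟨r, hr, habs⟩ := hK.absorb
  have hx0 : update (0 : Ix J I → ℝ) cc r ∈ K := by
    apply habs
    · intro d hd
      have : d ≠ cc := fun e => hd (e ▸ hc0)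
      simp [update_of_ne this]
    · intro d
      by_cases e : d = cc
      · subst e; simp [abs_of_pos hr]
      · simpa [update_of_ne e] using hr.le
  have h2 := hmax' _ hx0
  rw [dot_single_left] at h2
  have hdotpos : 0 < dot y (wv m S (phi m S K)) := lt_of_lt_of_le (mul_pos hr hwc0) h2
  have hn : (0:ℝ) < (S.card : ℝ) := by
    exact_mod_cast Finset.card_pos.2 ⟨cc, hc0⟩
  have hv : 0 < (vol S (K ∩ Cone m S)).toReal := by
    have h3 : 0 < (S.card : ℝ) * (vol S (K ∩ Cone m S)).toReal := lt_of_lt_of_le hdotpos h1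
    exact pos_of_mul_pos_nonneg (by rwa [mul_comm] at h3) ENNReal.toReal_nonneg
  set n : ℝ := (S.card : ℝ) with hndef
  set v := (vol S (K ∩ Cone m S)).toReal with hvdef
  set v' := (vol S (Polar S K ∩ Cone m S)).toReal with hv'def
  have hnv : 0 < n * v := mul_pos hn hv
  set a : Ix J I → ℝ := (n * v)⁻¹ • wv m S (phi m S K) with haeq
  have hell_w : ∀ c ∈ S, 0 ≤ ell m S c (wv m S (phi m S K)) := by
    intro c hc
    rcases tri S c with hs | ⟨i, rfl⟩ | ⟨i, rfl, hB⟩
    · rw [ell_wv_single hc hs]; exact (hpos c hc).le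
    · rw [ell_wv_B hc]
      exact mul_nonneg (hpos _ hc).le (by linarith [cos_al_lt_one hm i])
    · rw [ell_wv_A hcl hB]
      exact mul_nonneg (hpos _ hB).le (by linarith [cos_al_lt_one hm i])
  have haS : ∀ d, d ∉ S → a d = 0 := by
    intro d hd
    simp [haeq, wv_notMem hd]
  have haP : a ∈ Polar S K := by
    refine ⟨haS, fun x hx => ?_⟩
    rw [haeq, dot_smul_right]
    have h4 := hmax' x hx
    have h5 : dot x (wv m S (phi m S K)) ≤ n * v := h4.trans h1
    calc (n * v)⁻¹ * dot x (wv m S (phi m S K)) ≤ (n * v)⁻¹ * (n * v) := by gcongr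
      _ = 1 := inv_mul_cancel₀ hnv.ne'
  have hella : ∀ c ∈ S, 0 ≤ ell m S c a := by
    intro c hc
    rw [haeq, ell_smul]
    exact mul_nonneg (inv_nonneg.2 hnv.le) (hell_w c hc)
  have h3 := pyramid_real hm hcl (measurableSet_Polar S K) (convex_Polar S K)
    (fun c hc y hy => Polar_gam_mem hm hK hc hy) haP haS hella hRp
  have h4 : ∑ c ∈ S, ell m S c (wv m S (phi m S K)) * phi m S (Polar S K) c ≤ n * v * (n * v') := by
    have e : ∑ c ∈ S, ell m S c a * phi m S (Polar S K) c =
        (n * v)⁻¹ * ∑ c ∈ S, ell m S c (wv m S (phi m S K)) * phi m S (Polar S K) c := by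
      rw [Finset.mul_sum]
      refine Finset.sum_congr rfl fun c _ => ?_
      rw [haeq, ell_smul]
      ring
    rw [e, inv_mul_le_iff₀ hnv] at h3
    exact h3
  -- the bound for each term
  obtain ⟨k, hk⟩ : ∃ k, S.card = k + 1 := ⟨S.card - 1, by
    have := Finset.card_pos.2 ⟨cc, hc0⟩
    omega⟩
  have hW := WW_pos hm S
  set D : ℝ := WW m S / (k.factorial : ℝ) with hD
  have hD0 : 0 ≤ D := by positivity
  have hcardr : ∀ r ∈ S, (S.erase r).card = k := by
    intro r hr
    rw [Finset.card_erase_of_mem hr, hk]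
    rfl
  have hsingle_bound : ∀ c ∈ S, Single S c → D ≤ phi m S K c * phi m S (Polar S K) c := by
    intro c hc hs
    have h5 := hlow_single c hc hs
    have h6 : w0 m c = 1 := by
      rcases hs with ⟨j, rfl⟩ | ⟨i, rfl, _⟩ <;> rfl
    have h7 := WW_erase (m := m) hc
    rw [h6, one_mul] at h7
    unfold TT at h5
    rw [hcardr c hc, h7] at h5
    exact h5
  have hblock_bound : ∀ i, B i ∈ S →
      D ≤ phi m S K (B i) * (1 - Real.cos (al m i)) * phi m S (Polar S K) (B i) := by
    intro i hB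
    have h5 := hlow_block i hB
    have h8 : 0 ≤ 1 - Real.cos (al m i) := by linarith [cos_al_lt_one hm i]
    have h9 := mul_le_mul_of_nonneg_left h5 h8
    have h7 := WW_erase (m := m) hB
    have h6 : w0 m (B i : Ix J I) = 4 * Real.cos (ha m i) * (1 - Real.cos (ha m i)) := rfl
    rw [h6, ← one_sub_cos_mul_c0 m hm i] at h7
    have h10 : D = (1 - Real.cos (al m i)) * (c0 m i * TT m (S.erase (B i))) := by
      unfold TT
      rw [hcardr _ hB, hD, ← h7]
      ring
    rw [h10]
    calc (1 - Real.cos (al m i)) * (c0 m i * TT m (S.erase (B i)))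
        ≤ (1 - Real.cos (al m i)) * (phi m S K (B i) * phi m S (Polar S K) (B i)) := h9
      _ = _ := by ring
  have hterm : ∀ c ∈ S, D ≤ ell m S c (wv m S (phi m S K)) * phi m S (Polar S K) c := by
    intro c hc
    rcases tri S c with hs | ⟨i, rfl⟩ | ⟨i, rfl, hB⟩
    · rw [ell_wv_single hc hs]
      exact hsingle_bound c hc hs
    · rw [ell_wv_B hc]
      exact hblock_bound i hc
    · rw [ell_wv_A hcl hB, phi_A m _ hB]
      exact hblock_bound i hB
  have hsum := Finset.card_nsmul_le_sum S _ D hterm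
  rw [nsmul_eq_mul] at hsum
  have hTTS : TT m S = D / n := by
    unfold TT
    rw [hD, hndef, hk, Nat.factorial_succ]
    push_cast
    have h5 : (k.factorial : ℝ) ≠ 0 := by positivity
    have h6 : ((k:ℝ) + 1) ≠ 0 := by positivity
    field_simp
  have hQQ : QQ m S K = v * v' := rfl
  have hfinal : n * D ≤ n * v * (n * v') := hsum.trans h4
  rw [hTTS, div_le_iff₀ hn, hQQ]
  have hfinal2 : n * D ≤ n * (v * v' * n) := by
    calc n * D ≤ n * v * (n * v') := hfinal
      _ = n * (v * v' * n) := by ring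
  exact le_of_mul_le_mul_left hfinal2 hn

lemma vol_empty_of_zero_mem {X : Set (Ix J I → ℝ)} (h : (0 : Ix J I → ℝ) ∈ X) :
    vol (∅ : Finset (Ix J I)) X = 1 := by
  unfold vol
  have : (fun y : (∅ : Finset (Ix J I)) → ℝ => updateFinset (0 : Ix J I → ℝ) ∅ y) ⁻¹' X = univ := by
    ext y
    simp only [mem_preimage, mem_univ, iff_true]
    convert h using 1
    ext d
    simp [updateFinset]
  rw [this, volume_pi, Measure.pi_univ]
  simp

/-- **The main inequality** for all active sets. -/
theorem mainIneq (hm : ∀ i, 3 ≤ m i) (S : Finset (Ix J I)) :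
    Closed S → ∀ K, InClass m S K → TT m S ≤ QQ m S K := by
  induction S using Finset.strongInduction with
  | H S ih =>
    intro hcl K hK
    by_cases hS : S = ∅
    · subst hS
      have h0 := hK.zero_mem
      have e1 : vol (∅ : Finset (Ix J I)) (K ∩ Cone m ∅) = 1 :=
        vol_empty_of_zero_mem ⟨h0, fun c hc => absurd hc (Finset.notMem_empty c)⟩
      have e2 : vol (∅ : Finset (Ix J I)) (Polar ∅ K ∩ Cone m ∅) = 1 :=
        vol_empty_of_zero_mem ⟨⟨fun _ _ => rfl, fun x _ => by simp [dot]⟩,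
          fun c hc => absurd hc (Finset.notMem_empty c)⟩
      unfold QQ TT WW
      rw [e1, e2]
      simp
    · exact step hm hcl hK (Finset.nonempty_iff_ne_empty.2 hS)
        (fun S' hS' hcl' K' hK' => ih S' hS' hcl' K' hK')

end Vale.Agent.Lib.P248R
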