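import Vale.Agent.Lib.P248R.Section

open MeasureTheory Set Function
open scoped ENNReal

set_option linter.unusedSectionVars false

noncomputable section
namespace Vale.Agent.Lib.P248R

open Vale.Agent.Lib.P248

variable {J I : Type*} [Fintype J] [Fintype I] [DecidableEq J] [DecidableEq I]
variable {m : I → ℕ} {S : Finset (Ix J I)} {K : Set (Ix J I → ℝ)}

lemma Single.ne_B {c : Ix J I} (h : Single S c) (i : I) : c ≠ B i := by
  rcases h with ⟨j, rfl⟩ | ⟨i', rfl, _⟩
  · simp [B]
  · simp [A, B]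

lemma Single.ne_A {c : Ix J I} (h : Single S c) {i : I} (hi : B i ∈ S) : c ≠ A i := by
  rintro rfl
  rcases h with ⟨j, hj⟩ | ⟨i', hi', h⟩
  · simp [A] at hj
  · have : i = i' := by simpa [A] using hi'
    subst this
    exact h hi

lemma closed_erase_single (hcl : Closed S) {c : Ix J I} (hs : Single S c) :
    Closed (S.erase c) := by
  intro i hi
  have hi' := Finset.mem_of_mem_erase hi
  exact Finset.mem_erase.2 ⟨(hs.ne_A hi').symm, hcl i hi'⟩

lemma closed_erase_B (hcl : Closed S) (i : I) : Closed (S.erase (B i)) := by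
  intro i' hi
  have hi' := Finset.mem_of_mem_erase hi
  exact Finset.mem_erase.2 ⟨A_ne_B _ _, hcl i' hi'⟩

lemma convex_hyp (c : Ix J I) : Convex ℝ {x : Ix J I → ℝ | x c = 0} := by
  intro x hx y hy a b _ _ _
  simp only [mem_ofPred_eq, Pi.add_apply, Pi.smul_apply, smul_eq_mul] at hx hy ⊢
  rw [hx, hy]; ring

lemma isClosed_hyp (c : Ix J I) : IsClosed {x : Ix J I → ℝ | x c = 0} :=
  isClosed_eq (continuous_apply c) continuous_const

lemma InClass.erase_single (hK : InClass m S K) {c : Ix J I} (hs : Single S c) :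
    InClass m (S.erase c) (K ∩ {x | x c = 0}) where
  conv := hK.conv.inter (convex_hyp c)
  comp := hK.comp.inter_right (isClosed_hyp c)
  supp := by
    intro x hx d hd
    by_cases e : d = c
    · subst e; exact hx.2
    · exact hK.supp x hx.1 d (fun h => hd (Finset.mem_erase.2 ⟨e, h⟩))
  absorb := by
    obtain ⟨r, hr, h⟩ := hK.absorb
    refine ⟨r, hr, fun x hx hxr => ⟨h x (fun d hd => hx d (fun h' => hd (Finset.mem_of_mem_erase h')))
      hxr, hx c (Finset.notMem_erase c S)⟩⟩
  shrink := by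
    intro c' hc' hs'
    have hne := Finset.ne_of_mem_erase hc'
    have hs'' : Single S c' := by
      rcases hs' with ⟨j, rfl⟩ | ⟨i, rfl, hi⟩
      · exact Or.inl ⟨j, rfl⟩
      · refine Or.inr ⟨i, rfl, fun hb => hi (Finset.mem_erase.2 ⟨(hs.ne_B i).symm, hb⟩)⟩
    obtain ⟨t, ht, h⟩ := hK.shrink c' (Finset.mem_of_mem_erase hc') hs''
    refine ⟨t, ht, fun x hx => ⟨h x hx.1, ?_⟩⟩
    show update x c' _ c = 0
    rw [update_of_ne hne.symm]
    exact hx.2
  rot := by
    intro i hi k x hx
    have hi' := Finset.mem_of_mem_erase hi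
    refine ⟨hK.rot i hi' k x hx.1, ?_⟩
    show rot2 (A i) (B i) _ x c = 0
    rw [rot2_other (hs.ne_A hi') (hs.ne_B i)]
    exact hx.2

lemma InClass.erase_B (hm : ∀ i, 3 ≤ m i) (hK : InClass m S K) {i : I} (hB : B i ∈ S) :
    InClass m (S.erase (B i)) (K ∩ {x | x (B i) = 0}) where
  conv := hK.conv.inter (convex_hyp _)
  comp := hK.comp.inter_right (isClosed_hyp _)
  supp := by
    intro x hx d hd
    by_cases e : d = B i
    · subst e; exact hx.2
    · exact hK.supp x hx.1 d (fun h => hd (Finset.mem_erase.2 ⟨e, h⟩))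
  absorb := by
    obtain ⟨r, hr, h⟩ := hK.absorb
    refine ⟨r, hr, fun x hx hxr => ⟨h x (fun d hd => hx d (fun h' => hd (Finset.mem_of_mem_erase h')))
      hxr, hx (B i) (Finset.notMem_erase _ S)⟩⟩
  shrink := by
    intro c' hc' hs'
    have hne := Finset.ne_of_mem_erase hc'
    rcases hs' with ⟨j, rfl⟩ | ⟨i', rfl, hi⟩
    · obtain ⟨t, ht, h⟩ := hK.shrink _ (Finset.mem_of_mem_erase hc') (Or.inl ⟨j, rfl⟩)
      refine ⟨t, ht, fun x hx => ⟨h x hx.1, ?_⟩⟩
      show update x _ _ (B i) = 0
      rw [update_of_ne hne.symm]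
      exact hx.2
    · by_cases e : i' = i
      · subst e
        obtain ⟨j, hj⟩ := exists_neg_cos hm i'
        refine ⟨- Real.cos ((j:ℝ) * al m i'), by linarith, fun x hx => ?_⟩
        have hx0 : x (B i') = 0 := hx.2
        have h1 := axis_neg hm hK.conv (hK.rot i' hB) j hx.1 hx0
        rw [neg_neg]
        refine ⟨h1, ?_⟩
        show update x _ _ (B i') = 0
        rw [update_of_ne (A_ne_B i' i').symm]
        exact hx0
      · have hb : B i' ∉ S := fun hb => hi (Finset.mem_erase.2 ⟨by simp [e], hb⟩)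
        obtain ⟨t, ht, h⟩ := hK.shrink _ (Finset.mem_of_mem_erase hc') (Or.inr ⟨i', rfl, hb⟩)
        refine ⟨t, ht, fun x hx => ⟨h x hx.1, ?_⟩⟩
        show update x _ _ (B i) = 0
        rw [update_of_ne hne.symm]
        exact hx.2
  rot := by
    intro i' hi' k x hx
    have hi'' := Finset.mem_of_mem_erase hi'
    have e : i' ≠ i := by
      rintro rfl
      exact Finset.notMem_erase _ _ hi'
    refine ⟨hK.rot i' hi'' k x hx.1, ?_⟩
    show rot2 (A i') (B i') _ x (B i) = 0
    rw [rot2_other (A_ne_B _ _).symm (by simp [e.symm])]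
    exact hx.2

/-! ### Polar inclusions -/

lemma polar_single_subset (hK : InClass m S K) {c : Ix J I} (hc : c ∈ S) (hs : Single S c) :
    Polar (S.erase c) (K ∩ {x | x c = 0}) ⊆ Polar S K ∩ {x | x c = 0} := by
  intro y hy
  have hyc : y c = 0 := hy.1 c (Finset.notMem_erase c S)
  refine ⟨⟨fun d hd => hy.1 d (fun h => hd (Finset.mem_of_mem_erase h)), fun x hx => ?_⟩, hyc⟩
  have hmid : update x c 0 ∈ K := by
    obtain ⟨t, ht, h⟩ := hK.shrink c hc hs
    have hden : 0 < 1 + t := by linarith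
    have := hK.conv hx (h x hx) (div_nonneg ht.le hden.le) (div_nonneg zero_le_one hden.le)
      (by rw [← add_div, div_eq_one_iff_eq hden.ne']; ring)
    convert this using 1
    ext d
    by_cases e : d = c
    · subst e
      simp only [update_self, Pi.add_apply, Pi.smul_apply, smul_eq_mul]
      field_simp
      ring
    · simp only [update_of_ne e, Pi.add_apply, Pi.smul_apply, smul_eq_mul]
      field_simp
      ring
  have h1 := hy.2 (update x c 0) ⟨hmid, by simp⟩
  rw [dot_update_left, hyc] at h1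
  simpa using h1

lemma dot_section (i : I) (c0 : ℝ) (x y : Ix J I → ℝ) (hy : y (B i) = 0) :
    dot (update (update x (A i) (c0 * x (A i))) (B i) 0) y = dot x (scaleAt (A i) c0 y) := by
  have h : dot x (scaleAt (A i) c0 y) = dot x y + (c0 * y (A i) - y (A i)) * x (A i) := by
    rw [dot_comm x, scaleAt, dot_update_left, dot_comm y]
  rw [dot_update_left, dot_update_left, h, hy, update_of_ne (A_ne_B i i).symm]
  ring

lemma scale_mem_Bas (hm : ∀ i, 3 ≤ m i) (hK : InClass m S K) (hcl : Closed S) {i : I}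
    (hB : B i ∈ S) {y : Ix J I → ℝ} (hy : y ∈ Polar (S.erase (B i)) (K ∩ {x | x (B i) = 0}))
    (hyc : y ∈ Cone m (S.erase (B i))) :
    scaleAt (A i) (c0 m i) y ∈ Bas m S (Polar S K) (B i) := by
  have hA := hcl i hB
  have hy0 : y (B i) = 0 := hy.1 _ (Finset.notMem_erase _ _)
  have hb' : B i ∉ S.erase (B i) := Finset.notMem_erase _ _
  refine ⟨⟨⟨fun d hd => ?_, fun x hx => ?_⟩, ?_⟩, fun c' hc' => ?_⟩
  · have hne : d ≠ A i := by rintro rfl; exact hd hA
    rw [scaleAt, update_of_ne hne]
    exact hy.1 d (fun h => hd (Finset.mem_of_mem_erase h))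
  · rw [← dot_section i _ x y hy0]
    exact hy.2 _ ⟨section_lemma hm hK.conv hK.comp (hK.rot i hB) hx, by simp⟩
  · show scaleAt (A i) (c0 m i) y (B i) = 0
    rw [scaleAt, update_of_ne (A_ne_B i i).symm]
    exact hy0
  · have h1 := hyc c' hc'
    by_cases e : c' = A i
    · subst e
      have hpl : Plain (S.erase (B i)) (A i) := by
        intro i' hi'
        have : i = i' := by simpa [A] using hi'
        subst this
        exact hb'
      rw [ell_plain hpl] at h1 ⊢
      rw [scaleAt, update_self]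
      exact mul_pos (c0_pos hm i) h1
    · rcases plain_or (S.erase (B i)) c' with hp | ⟨i', rfl, hp⟩
      · rw [ell_plain hp] at h1 ⊢
        rw [scaleAt, update_of_ne e]
        exact h1
      · rw [ell_A hp] at h1 ⊢
        have e2 : i' ≠ i := by rintro rfl; exact e rfl
        rw [scaleAt, update_of_ne e, update_of_ne (A_ne_B _ _).symm]
        exact h1

lemma vol_polar_block (hm : ∀ i, 3 ≤ m i) (hK : InClass m S K) (hcl : Closed S) {i : I}
    (hB : B i ∈ S) :
    ENNReal.ofReal (c0 m i) *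
      vol (S.erase (B i)) (Polar (S.erase (B i)) (K ∩ {x | x (B i) = 0}) ∩ Cone m (S.erase (B i)))
      ≤ vol (S.erase (B i)) (Bas m S (Polar S K) (B i)) := by
  have hA : A i ∈ S.erase (B i) := Finset.mem_erase.2 ⟨A_ne_B i i, hcl i hB⟩
  have hmeas := measurableSet_Bas m S (measurableSet_Polar S K) (B i)
  rw [← vol_scaleAt hA (c0_pos hm i) hmeas]
  gcongr
  refine vol_mono _ fun y hy => ?_
  exact scale_mem_Bas hm hK hcl hB hy.1 hy.2

end Vale.Agent.Lib.P248R
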