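import Vale.Agent.Lib.P248R.Top

open MeasureTheory Set Function
open scoped ENNReal Topology Pointwise

set_option linter.unusedSectionVars false

noncomputable section
namespace Vale.Agent.Lib.P248R

open Vale.Agent.Lib.P248

section general
variable {ι : Type*} [Fintype ι]

lemma volume_lt_homog {g : (ι → ℝ) → ℝ}
    (hh : ∀ t : ℝ, 0 < t → ∀ y, g (t • y) = t * g y) (s : ℝ) (hs : 0 < s) :
    volume {y | g y < s} = ENNReal.ofReal (s ^ Fintype.card ι) * volume {y | g y < 1} := by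
  have : {y | g y < s} = s • {y | g y < 1} := by
    ext y
    rw [Set.mem_smul_set_iff_inv_smul_mem₀ hs.ne']
    simp only [mem_ofPred_eq]
    rw [hh _ (inv_pos.2 hs)]
    constructor
    · intro h
      rw [inv_mul_lt_iff₀ hs]
      linarith
    · intro h
      rw [inv_mul_lt_iff₀ hs] at h
      linarith
  rw [this, Measure.addHaar_smul, Module.finrank_fintype_fun_eq_card, abs_of_pos (pow_pos hs _)]

/-- Layer cake for the function `(1 - g)₊` with `g` nonnegative and homogeneous. -/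
lemma lintegral_one_sub_homog {g : (ι → ℝ) → ℝ} (hg : Measurable g) (h0 : ∀ y, 0 ≤ g y)
    (hh : ∀ t : ℝ, 0 < t → ∀ y, g (t • y) = t * g y) :
    ∫⁻ y, ENNReal.ofReal (1 - g y) =
      ENNReal.ofReal (1 / ((Fintype.card ι : ℝ) + 1)) * volume {y | g y < 1} := by
  set n := Fintype.card ι with hn
  set U := {y | g y < 1} with hU
  -- slices
  have hslice : ∀ s : ℝ, 0 < s → volume {y | g y < s} = ENNReal.ofReal (s ^ n) * volume U :=
    fun s hs => volume_lt_homog hh s hs
  -- pointwise layer cake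
  have hpt : ∀ y, ENNReal.ofReal (1 - g y) =
      ∫⁻ s, (Ioo (0:ℝ) 1 ∩ {s | g y < s}).indicator 1 s := by
    intro y
    have hm : MeasurableSet (Ioo (0:ℝ) 1 ∩ {s | g y < s}) :=
      measurableSet_Ioo.inter measurableSet_Ioi
    rw [lintegral_indicator_one hm]
    have : Ioo (0:ℝ) 1 ∩ {s | g y < s} = Ioo (g y) 1 := by
      ext s
      simp only [mem_inter_iff, mem_Ioo, mem_ofPred_eq]
      constructor
      · rintro ⟨⟨_, h2⟩, h3⟩
        exact ⟨h3, h2⟩
      · rintro ⟨h1, h2⟩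
        exact ⟨⟨lt_of_le_of_lt (h0 y) h1, h2⟩, h1⟩
    rw [this, Real.volume_Ioo]
  simp_rw [hpt]
  -- Tonelli
  have hmeas : Measurable (uncurry fun (y : ι → ℝ) (s : ℝ) =>
      (Ioo (0:ℝ) 1 ∩ {s | g y < s}).indicator (1 : ℝ → ℝ≥0∞) s) := by
    have hset : MeasurableSet {p : (ι → ℝ) × ℝ | p.2 ∈ Ioo (0:ℝ) 1 ∧ g p.1 < p.2} := by
      refine MeasurableSet.inter (measurable_snd measurableSet_Ioo) ?_
      exact measurableSet_lt (hg.comp measurable_fst) measurable_snd
    have : (uncurry fun (y : ι → ℝ) (s : ℝ) =>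
        (Ioo (0:ℝ) 1 ∩ {s | g y < s}).indicator (1 : ℝ → ℝ≥0∞) s) =
        {p : (ι → ℝ) × ℝ | p.2 ∈ Ioo (0:ℝ) 1 ∧ g p.1 < p.2}.indicator 1 := by
      ext p
      simp only [uncurry]
      by_cases h : p.2 ∈ Ioo (0:ℝ) 1 ∧ g p.1 < p.2
      · rw [indicator_of_mem (show p.2 ∈ Ioo (0:ℝ) 1 ∩ {s | g p.1 < s} from h),
          indicator_of_mem (show p ∈ {p : (ι → ℝ) × ℝ | p.2 ∈ Ioo (0:ℝ) 1 ∧ g p.1 < p.2} from h)]
        rfl
      · rw [indicator_of_notMem (show p.2 ∉ Ioo (0:ℝ) 1 ∩ {s | g p.1 < s} from h),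
          indicator_of_notMem
            (show p ∉ {p : (ι → ℝ) × ℝ | p.2 ∈ Ioo (0:ℝ) 1 ∧ g p.1 < p.2} from h)]
    rw [this]
    exact measurable_one.indicator hset
  rw [lintegral_lintegral_swap hmeas.aemeasurable]
  -- evaluate the inner integral
  have hinner : ∀ s : ℝ, ∫⁻ y, (Ioo (0:ℝ) 1 ∩ {s | g y < s}).indicator (1 : ℝ → ℝ≥0∞) s =
      (Ioo (0:ℝ) 1).indicator (fun s => ENNReal.ofReal (s ^ n) * volume U) s := by
    intro s
    by_cases hs : s ∈ Ioo (0:ℝ) 1
    · rw [indicator_of_mem hs, ← hslice s hs.1]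
      have hm2 : MeasurableSet {y | g y < s} := measurableSet_lt hg measurable_const
      rw [← lintegral_indicator_one hm2]
      refine lintegral_congr fun y => ?_
      by_cases hy : g y < s
      · rw [indicator_of_mem (show s ∈ Ioo (0:ℝ) 1 ∩ {s | g y < s} from ⟨hs, hy⟩),
          indicator_of_mem (show y ∈ {y | g y < s} from hy)]
        rfl
      · rw [indicator_of_notMem (show s ∉ Ioo (0:ℝ) 1 ∩ {s | g y < s} from fun h => hy h.2),
          indicator_of_notMem (show y ∉ {y | g y < s} from hy)]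
    · rw [indicator_of_notMem hs]
      have : ∀ y, (Ioo (0:ℝ) 1 ∩ {s | g y < s}).indicator (1 : ℝ → ℝ≥0∞) s = 0 := fun y =>
        indicator_of_notMem (fun h => hs h.1) _
      simp [this]
  simp_rw [hinner]
  rw [lintegral_indicator measurableSet_Ioo, lintegral_mul_const _ (by fun_prop)]
  congr 1
  -- `∫ s^n = 1/(n+1)`
  have h1 := lintegral_one_sub_pow n
  rw [← h1]
  have hmp : MeasurePreserving (fun s : ℝ => 1 - s) volume volume :=
    (Measure.measurePreserving_sub_left volume 1)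
  have hpre : (fun s : ℝ => 1 - s) ⁻¹' Ioo (0:ℝ) 1 = Ioo (0:ℝ) 1 := by
    ext s
    simp only [mem_preimage, mem_Ioo]
    constructor
    · rintro ⟨h2, h3⟩
      exact ⟨by linarith, by linarith⟩
    · rintro ⟨h2, h3⟩
      exact ⟨by linarith, by linarith⟩
  have := hmp.setLIntegral_comp_preimage_emb (MeasurableEquiv.subLeft (1:ℝ)).measurableEmbedding
    (fun s => ENNReal.ofReal (s ^ n)) (Ioo (0:ℝ) 1)
  rw [hpre] at this
  exact this.symm

end general

section body
variable {J I : Type*} [Fintype J] [Fintype I] [DecidableEq J] [DecidableEq I]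
variable {m : I → ℕ} {K : Set (Ix J I → ℝ)}

/-- Support function. -/
def hS (K : Set (Ix J I → ℝ)) (y : Ix J I → ℝ) : ℝ := sSup ((fun x => dot x y) '' K)

lemma le_hS (hc : IsCompact K) {x : Ix J I → ℝ} (hx : x ∈ K) (y : Ix J I → ℝ) :
    dot x y ≤ hS K y :=
  le_csSup (hc.image (continuous_dot_left y)).bddAbove ⟨x, hx, rfl⟩

lemma hS_le (hne : K.Nonempty) {y : Ix J I → ℝ} {t : ℝ} (h : ∀ x ∈ K, dot x y ≤ t) :
    hS K y ≤ t :=
  csSup_le (hne.image _) (by rintro _ ⟨x, hx, rfl⟩; exact h x hx)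

lemma hS_le_iff (hc : IsCompact K) (hne : K.Nonempty) {y : Ix J I → ℝ} {t : ℝ} :
    hS K y ≤ t ↔ ∀ x ∈ K, dot x y ≤ t :=
  ⟨fun h x hx => (le_hS hc hx y).trans h, hS_le hne⟩

lemma measurable_hS (hc : IsCompact K) (hne : K.Nonempty) : Measurable (hS K) := by
  refine measurable_of_Iic fun t => ?_
  have : hS K ⁻¹' Iic t = ⋂ x, ⋂ _ : x ∈ K, {y : Ix J I → ℝ | dot x y ≤ t} := by
    ext y
    simp only [mem_preimage, mem_Iic, mem_iInter, mem_ofPred_eq]
    exact hS_le_iff hc hne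
  rw [this]
  exact (isClosed_iInter fun x => isClosed_iInter fun _ =>
    isClosed_le (continuous_dot_right x) continuous_const).measurableSet

lemma hS_smul (hc : IsCompact K) (hne : K.Nonempty) {t : ℝ} (ht : 0 < t) (y : Ix J I → ℝ) :
    hS K (t • y) = t * hS K y := by
  apply le_antisymm
  · refine hS_le hne fun x hx => ?_
    rw [dot_smul_right]
    exact mul_le_mul_of_nonneg_left (le_hS hc hx y) ht.le
  · rw [← le_div_iff₀' ht]
    refine hS_le hne fun x hx => ?_
    rw [le_div_iff₀' ht, ← dot_smul_right]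
    exact le_hS hc hx _

/-- The function whose sublevel set is the polar of `K - z`. -/
def gz (K : Set (Ix J I → ℝ)) (z y : Ix J I → ℝ) : ℝ := hS K y - dot z y

lemma measurable_gz (hc : IsCompact K) (hne : K.Nonempty) (z : Ix J I → ℝ) :
    Measurable (gz K z) :=
  (measurable_hS hc hne).sub (continuous_dot_right z).measurable

/-- The integral functional. -/
def FF (K : Set (Ix J I → ℝ)) (z : Ix J I → ℝ) : ℝ≥0∞ :=
  ∫⁻ y, ENNReal.ofReal (1 - gz K z y)

lemma FF_eq (hc : IsCompact K) {z : Ix J I → ℝ} (hz : z ∈ K) :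
    FF K z = ENNReal.ofReal (1 / ((Fintype.card (Ix J I) : ℝ) + 1)) * volume {y | gz K z y < 1} := by
  refine lintegral_one_sub_homog (measurable_gz hc ⟨z, hz⟩ z) (fun y => ?_) (fun t ht y => ?_)
  · have := le_hS hc hz y
    unfold gz
    linarith
  · unfold gz
    rw [hS_smul hc ⟨z, hz⟩ ht, dot_smul_right]
    ring

lemma dot_sum_left {κ : Type*} (t : Finset κ) (w : κ → ℝ) (z : κ → Ix J I → ℝ) (y : Ix J I → ℝ) :
    dot (∑ k ∈ t, w k • z k) y = ∑ k ∈ t, w k * dot (z k) y := by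
  unfold dot
  simp only [Finset.sum_apply, Pi.smul_apply, smul_eq_mul, Finset.sum_mul, Finset.mul_sum]
  rw [Finset.sum_comm]
  refine Finset.sum_congr rfl fun k _ => Finset.sum_congr rfl fun c _ => ?_
  ring

lemma ofReal_sum_mul_le {κ : Type*} (t : Finset κ) (w a : κ → ℝ) (hw : ∀ k ∈ t, 0 ≤ w k) :
    ENNReal.ofReal (∑ k ∈ t, w k * a k) ≤
      ∑ k ∈ t, ENNReal.ofReal (w k) * ENNReal.ofReal (a k) := by
  have h1 : ∑ k ∈ t, w k * a k ≤ ∑ k ∈ t, w k * max (a k) 0 :=
    Finset.sum_le_sum fun k hk => mul_le_mul_of_nonneg_left (le_max_left _ _) (hw k hk)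
  refine (ENNReal.ofReal_le_ofReal h1).trans ?_
  rw [ENNReal.ofReal_sum_of_nonneg fun k hk => mul_nonneg (hw k hk) (le_max_right _ _)]
  refine Finset.sum_le_sum fun k hk => ?_
  rw [ENNReal.ofReal_mul (hw k hk)]
  have : ENNReal.ofReal (max (a k) 0) = ENNReal.ofReal (a k) := by
    rcases le_total (a k) 0 with h | h
    · rw [max_eq_right h, ENNReal.ofReal_of_nonpos h, ENNReal.ofReal_zero]
    · rw [max_eq_left h]
  rw [this]

/-- Convexity of the functional. -/
lemma FF_sum_le (hc : IsCompact K) (hne : K.Nonempty) {κ : Type*} (t : Finset κ) (w : κ → ℝ)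
    (z : κ → Ix J I → ℝ) (hw : ∀ k ∈ t, 0 ≤ w k) (hsum : ∑ k ∈ t, w k = 1) :
    FF K (∑ k ∈ t, w k • z k) ≤ ∑ k ∈ t, ENNReal.ofReal (w k) * FF K (z k) := by
  unfold FF
  have hm : ∀ k, Measurable fun y => ENNReal.ofReal (1 - gz K (z k) y) := fun k =>
    (measurable_const.sub (measurable_gz hc hne (z k))).ennreal_ofReal
  simp_rw [← lintegral_const_mul _ (hm _)]
  rw [← lintegral_finsetSum _ (fun k _ => (hm k).const_mul _)]
  refine lintegral_mono fun y => ?_
  have e : 1 - gz K (∑ k ∈ t, w k • z k) y = ∑ k ∈ t, w k * (1 - gz K (z k) y) := by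
    unfold gz
    rw [dot_sum_left]
    have : ∑ k ∈ t, w k * (1 - (hS K y - dot (z k) y)) =
        (∑ k ∈ t, w k) * (1 - hS K y) + ∑ k ∈ t, w k * dot (z k) y := by
      rw [Finset.sum_mul, ← Finset.sum_add_distrib]
      refine Finset.sum_congr rfl fun k _ => ?_
      ring
    rw [this, hsum]
    ring
  simp only [e]
  exact ofReal_sum_mul_le t w _ hw

/-- Invariance of the functional. -/
lemma FF_invariant (hc : IsCompact K) (hne : K.Nonempty) {γ f : (Ix J I → ℝ) → (Ix J I → ℝ)}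
    (hf : MeasurePreserving f volume volume) (hdot : ∀ z y, dot (γ z) y = dot z (f y))
    (hKf : ∀ y, hS K (f y) = hS K y) (z : Ix J I → ℝ) : FF K (γ z) = FF K z := by
  unfold FF
  have hm : Measurable fun y => ENNReal.ofReal (1 - gz K z y) :=
    (measurable_const.sub (measurable_gz hc hne z)).ennreal_ofReal
  rw [← hf.lintegral_comp hm]
  refine lintegral_congr fun y => ?_
  unfold gz
  rw [hdot, hKf]

lemma measurePreserving_of_vol {f : (Ix J I → ℝ) → (Ix J I → ℝ)} (hf : Continuous f)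
    (h : ∀ X, MeasurableSet X → vol Finset.univ (f ⁻¹' X) = vol Finset.univ X) :
    MeasurePreserving f volume volume := by
  refine ⟨hf.measurable, Measure.ext fun X hX => ?_⟩
  rw [Measure.map_apply hf.measurable hX, ← vol_univ hX, ← vol_univ (hf.measurable hX)]
  exact h X hX

lemma hS_flip (hc : IsCompact K) (hne : K.Nonempty) (c : Ix J I)
    (hflip : ∀ x ∈ K, flipAt c x ∈ K) (y : Ix J I → ℝ) : hS K (flipAt c y) = hS K y := by
  have key : ∀ u : Ix J I → ℝ, hS K (flipAt c u) ≤ hS K u := by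
    intro u
    refine hS_le hne fun x hx => ?_
    rw [← dot_flipAt]
    exact le_hS hc (hflip x hx) u
  apply le_antisymm (key y)
  have := key (flipAt c y)
  rwa [flipAt_flipAt] at this

lemma FF_flip (hc : IsCompact K) (hne : K.Nonempty) (c : Ix J I)
    (hflip : ∀ x ∈ K, flipAt c x ∈ K) (z : Ix J I → ℝ) : FF K (flipAt c z) = FF K z :=
  FF_invariant hc hne
    (measurePreserving_of_vol (continuous_flipAt c) fun _ hX => vol_flipAt (Finset.mem_univ c) hX)
    (dot_flipAt c) (hS_flip hc hne c hflip) z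

lemma FF_rot (hm : ∀ i, 3 ≤ m i) (hc : IsCompact K) (hne : K.Nonempty) {i : I}
    (hrot : RotInv m i K) {k : ℕ} (hk : k ≤ m i) (z : Ix J I → ℝ) :
    FF K (rot2 (A i) (B i) ((k:ℝ) * al m i) z) = FF K z := by
  have hab := A_ne_B (J := J) i i
  have hfeq : (rot2 (A i) (B i) (-((k:ℝ) * al m i)) : (Ix J I → ℝ) → (Ix J I → ℝ)) =
      rot2 (A i) (B i) (((m i - k : ℕ) : ℝ) * al m i) := by
    ext1 y
    have e : (((m i - k : ℕ) : ℝ)) * al m i = -((k:ℝ) * al m i) + 2 * Real.pi := by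
      rw [Nat.cast_sub hk]
      have := m_mul_al hm i
      linear_combination this
    rw [e, rot2_add_two_pi]
  have hS_inv : ∀ y, hS K (rot2 (A i) (B i) (-((k:ℝ) * al m i)) y) = hS K y := by
    have key1 : ∀ u : Ix J I → ℝ, hS K (rot2 (A i) (B i) (-((k:ℝ) * al m i)) u) ≤ hS K u := by
      intro u
      refine hS_le hne fun x hx => ?_
      have := dot_rot2 hab ((k:ℝ) * al m i) x u
      rw [← this]
      exact le_hS hc (hrot k x hx) u
    have key2 : ∀ u : Ix J I → ℝ, hS K (rot2 (A i) (B i) ((k:ℝ) * al m i) u) ≤ hS K u := by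
      intro u
      refine hS_le hne fun x hx => ?_
      have := dot_rot2 hab (-((k:ℝ) * al m i)) x u
      rw [neg_neg] at this
      rw [← this]
      exact le_hS hc (hrot.neg_k hm k hx) u
    intro y
    apply le_antisymm (key1 y)
    have := key2 (rot2 (A i) (B i) (-((k:ℝ) * al m i)) y)
    rw [rot2_add hab] at this
    simpa [rot2_zero hab] using this
  refine FF_invariant (f := rot2 (A i) (B i) (-((k:ℝ) * al m i))) hc hne ?_
    (dot_rot2 hab _) hS_inv z
  rw [hfeq]
  exact measurePreserving_of_vol (continuous_rot2 _ _ _) fun _ hX => vol_rot2_k (J := J) hm i _ hX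

/-- Averaging over a rotation group does not increase the functional. -/
lemma FF_avg_rot (hm : ∀ i, 3 ≤ m i) (hc : IsCompact K) (hne : K.Nonempty) {i : I}
    (hrot : RotInv m i K) (z : Ix J I → ℝ) :
    FF K (∑ k ∈ Finset.range (m i), (1 / (m i : ℝ)) • rot2 (A i) (B i) ((k:ℝ) * al m i) z) ≤
      FF K z := by
  have hm0 : (0:ℝ) < m i := by
    have : 0 < m i := by linarith [hm i]
    exact_mod_cast this
  have h := FF_sum_le hc hne (Finset.range (m i)) (fun _ => 1 / (m i : ℝ))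
    (fun k => rot2 (A i) (B i) ((k:ℝ) * al m i) z) (fun _ _ => by positivity)
    (by
      rw [Finset.sum_const, Finset.card_range, nsmul_eq_mul]
      field_simp)
  refine h.trans (le_of_eq ?_)
  have e : ∀ k ∈ Finset.range (m i), ENNReal.ofReal (1 / (m i : ℝ)) *
      FF K (rot2 (A i) (B i) ((k:ℝ) * al m i) z) = ENNReal.ofReal (1 / (m i : ℝ)) * FF K z := by
    intro k hk
    rw [FF_rot hm hc hne hrot (Finset.mem_range.1 hk).le]
  rw [Finset.sum_congr rfl e, Finset.sum_const, Finset.card_range, nsmul_eq_mul, ← mul_assoc]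
  have e2 : ((m i : ℕ) : ℝ≥0∞) * ENNReal.ofReal (1 / (m i : ℝ)) = 1 := by
    rw [← ENNReal.ofReal_natCast, ← ENNReal.ofReal_mul (by positivity)]
    rw [mul_one_div_cancel hm0.ne']
    simp
  rw [e2, one_mul]

lemma FF_avg_flip (hc : IsCompact K) (hne : K.Nonempty) {c : Ix J I}
    (hflip : ∀ x ∈ K, flipAt c x ∈ K) (z : Ix J I → ℝ) :
    FF K ((1 / 2 : ℝ) • z + (1 / 2 : ℝ) • flipAt c z) ≤ FF K z := by
  have h := FF_sum_le hc hne (Finset.univ : Finset Bool) (fun _ => (1 / 2 : ℝ))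
    (fun b => if b then z else flipAt c z) (fun _ _ => by norm_num)
    (by norm_num)
  simp only [Fintype.sum_bool, if_true, Bool.false_eq_true, if_false] at h
  rw [FF_flip hc hne c hflip] at h
  refine h.trans (le_of_eq ?_)
  rw [← add_mul, ← ENNReal.ofReal_add (by norm_num) (by norm_num)]
  norm_num

/-- **Descent to the origin.** -/
theorem FF_zero_le (hm : ∀ i, 3 ≤ m i) (hconv : Convex ℝ K) (hc : IsCompact K)
    (hflip : ∀ j, ∀ x ∈ K, flipAt (Sum.inl j) x ∈ K)
    (hrot : ∀ i, RotInv m i K) {z : Ix J I → ℝ} (hz : z ∈ K) : FF K 0 ≤ FF K z := by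
  have hne : K.Nonempty := ⟨z, hz⟩
  have h1 : ∀ P : Finset J, ∃ x : Ix J I → ℝ, (∀ j ∈ P, x (Sum.inl j) = 0) ∧ FF K x ≤ FF K z := by
    intro P
    induction P using Finset.induction_on with
    | empty => exact ⟨z, by simp, le_rfl⟩
    | insert j0 P hj0 ih =>
      obtain ⟨x, hx0, hxF⟩ := ih
      refine ⟨(1 / 2 : ℝ) • x + (1 / 2 : ℝ) • flipAt (Sum.inl j0 : Ix J I) x, fun j hj => ?_,
        (FF_avg_flip hc hne (hflip j0) x).trans hxF⟩
      rcases Finset.mem_insert.1 hj with rfl | hj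
      · simp [flipAt]
      · have hne : (Sum.inl j : Ix J I) ≠ Sum.inl j0 := by
          intro e
          have : j = j0 := Sum.inl.inj e
          exact hj0 (this ▸ hj)
        simp [flipAt, update_of_ne hne, hx0 j hj]
  obtain ⟨x0, hx00, hx0F⟩ := h1 Finset.univ
  have h2 : ∀ Q : Finset I, ∃ x : Ix J I → ℝ, (∀ j, x (Sum.inl j) = 0) ∧
      (∀ i ∈ Q, x (A i) = 0 ∧ x (B i) = 0) ∧ FF K x ≤ FF K z := by
    intro Q
    induction Q using Finset.induction_on with
    | empty => exact ⟨x0, fun j => hx00 j (Finset.mem_univ j), by simp, hx0F⟩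
    | insert i0 Q hi0 ih =>
      obtain ⟨x, hxJ, hxQ, hxF⟩ := ih
      have hcoord : ∀ d, (∑ k ∈ Finset.range (m i0), (1 / (m i0 : ℝ)) •
          rot2 (A i0) (B i0) ((k:ℝ) * al m i0) x) d =
          (1 / (m i0 : ℝ)) * ∑ k ∈ Finset.range (m i0), rot2 (A i0) (B i0) ((k:ℝ) * al m i0) x d := by
        intro d
        rw [Finset.sum_apply, Finset.mul_sum]
        simp
      obtain ⟨hA, hB⟩ := orbit_sum_plane hm i0 x
      refine ⟨_, fun j => ?_, fun i hi => ?_, (FF_avg_rot hm hc hne (hrot i0) x).trans hxF⟩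
      · rw [hcoord]
        have : ∀ k ∈ Finset.range (m i0), rot2 (A i0) (B i0) ((k:ℝ) * al m i0) x (Sum.inl j) = 0 := by
          intro k _
          rw [rot2_other (by simp [A]) (by simp [B])]
          exact hxJ j
        rw [Finset.sum_eq_zero this, mul_zero]
      · rcases Finset.mem_insert.1 hi with rfl | hi
        · rw [hcoord, hcoord, hA, hB]
          simp
        · have hne : i ≠ i0 := fun e => hi0 (e ▸ hi)
          have e1 : (A i : Ix J I) ≠ A i0 := by simp [hne]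
          have e2 : (A i : Ix J I) ≠ B i0 := A_ne_B _ _
          have e3 : (B i : Ix J I) ≠ A i0 := (A_ne_B _ _).symm
          have e4 : (B i : Ix J I) ≠ B i0 := by simp [hne]
          rw [hcoord, hcoord]
          have t1 : ∀ k ∈ Finset.range (m i0), rot2 (A i0) (B i0) ((k:ℝ) * al m i0) x (A i) = 0 := by
            intro k _
            rw [rot2_other e1 e2]
            exact (hxQ i hi).1
          have t2 : ∀ k ∈ Finset.range (m i0), rot2 (A i0) (B i0) ((k:ℝ) * al m i0) x (B i) = 0 := by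
            intro k _
            rw [rot2_other e3 e4]
            exact (hxQ i hi).2
          rw [Finset.sum_eq_zero t1, Finset.sum_eq_zero t2]
          simp
  obtain ⟨x, hxJ, hxQ, hxF⟩ := h2 Finset.univ
  have : x = 0 := by
    ext d
    rcases d with j | ⟨i, b⟩
    · exact hxJ j
    · cases b
      · exact (hxQ i (Finset.mem_univ i)).1
      · exact (hxQ i (Finset.mem_univ i)).2
  rwa [← this]

lemma dot_zero_left (y : Ix J I → ℝ) : dot 0 y = 0 := by
  simp [dot]

lemma dot_sub_left (x z y : Ix J I → ℝ) : dot (x - z) y = dot x y - dot z y := by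
  unfold dot
  rw [← Finset.sum_sub_distrib]
  exact Finset.sum_congr rfl fun c _ => by simp [sub_mul]

/-- **The Santalo point of `K` is the origin.** -/
theorem polar_le_polar_sub (hm : ∀ i, 3 ≤ m i) (hconv : Convex ℝ K) (hc : IsCompact K)
    (hflip : ∀ j, ∀ x ∈ K, flipAt (Sum.inl j) x ∈ K)
    (hrot : ∀ i, RotInv m i K) (h0 : (0 : Ix J I → ℝ) ∈ K) {z : Ix J I → ℝ} (hz : z ∈ K)
    (hfin : volume {y : Ix J I → ℝ | ∀ x ∈ K, dot x y ≤ 1} ≠ ⊤) :
    volume {y : Ix J I → ℝ | ∀ x ∈ K, dot x y ≤ 1} ≤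
      volume {y : Ix J I → ℝ | ∀ x ∈ K, dot (x - z) y ≤ 1} := by
  have hne : K.Nonempty := ⟨z, hz⟩
  set n := Fintype.card (Ix J I) with hn
  have hcn : ENNReal.ofReal (1 / ((n : ℝ) + 1)) ≠ 0 := by
    have : 0 < 1 / ((n : ℝ) + 1) := by positivity
    simpa using this
  have hF := FF_zero_le hm hconv hc hflip hrot hz
  rw [FF_eq hc h0, FF_eq hc hz] at hF
  have hV : volume {y | gz K 0 y < 1} ≤ volume {y | gz K z y < 1} :=
    (ENNReal.mul_le_mul_iff_right hcn ENNReal.ofReal_ne_top).1 hF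
  have h1 : volume {y | gz K z y < 1} ≤ volume {y : Ix J I → ℝ | ∀ x ∈ K, dot (x - z) y ≤ 1} := by
    refine measure_mono fun y hy x hx => ?_
    rw [dot_sub_left]
    have h2 := le_hS hc hx y
    have h3 : gz K z y < 1 := hy
    unfold gz at h3
    linarith
  refine le_trans ?_ (hV.trans h1)
  -- the boundary does not matter
  have hhom : ∀ t : ℝ, 0 < t → ∀ y, gz K 0 (t • y) = t * gz K 0 y := by
    intro t ht y
    unfold gz
    rw [hS_smul hc hne ht, dot_zero_left, dot_zero_left]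
    ring
  have hle : ∀ ε : ℝ, 0 < ε → volume {y : Ix J I → ℝ | ∀ x ∈ K, dot x y ≤ 1} ≤
      ENNReal.ofReal ((1 + ε) ^ n) * volume {y | gz K 0 y < 1} := by
    intro ε hε
    rw [← volume_lt_homog hhom (1 + ε) (by linarith)]
    refine measure_mono fun y hy => ?_
    have h2 : hS K y ≤ 1 := hS_le hne hy
    show gz K 0 y < 1 + ε
    unfold gz
    rw [dot_zero_left]
    linarith
  have hfin2 : volume {y | gz K 0 y < 1} ≠ ⊤ := by
    refine ne_top_of_le_ne_top hfin (measure_mono fun y hy x hx => ?_)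
    have h2 := le_hS hc hx y
    have h3 : gz K 0 y < 1 := hy
    unfold gz at h3
    rw [dot_zero_left] at h3
    linarith
  have hlim : Filter.Tendsto (fun ε : ℝ => ENNReal.ofReal ((1 + ε) ^ n) * volume {y | gz K 0 y < 1})
      (𝓝[>] 0) (𝓝 (ENNReal.ofReal ((1 + 0) ^ n) * volume {y | gz K 0 y < 1})) := by
    refine ENNReal.Tendsto.mul_const ?_ (Or.inr hfin2)
    refine ENNReal.tendsto_ofReal ?_
    have : Continuous fun ε : ℝ => (1 + ε) ^ n := by fun_prop
    exact (this.tendsto 0).mono_left nhdsWithin_le_nhds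
  have hlim2 := ge_of_tendsto hlim (Filter.mem_of_superset self_mem_nhdsWithin fun ε hε => hle ε hε)
  simpa using hlim2

end body

end Vale.Agent.Lib.P248R
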