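import Vale.Agent.Lib.P248R.Tile

open MeasureTheory Set Function
open scoped ENNReal Topology

set_option linter.unusedSectionVars false

noncomputable section
namespace Vale.Agent.Lib.P248R

open Vale.Agent.Lib.P248

variable {J I : Type*} [Fintype J] [Fintype I] [DecidableEq J] [DecidableEq I]
variable {m : I → ℕ}

lemma rotInv_of_fwd {K : Set (Ix J I → ℝ)} {i : I}
    (hrot : ∀ x ∈ K, rot2 (A i) (B i) (al m i) x ∈ K) : RotInv m i K := by
  intro k x hx
  induction k with
  | zero => simpa [rot2_zero (A_ne_B i i)] using hx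
  | succ k ih =>
    have h1 := hrot _ ih
    rw [rot2_add (A_ne_B i i)] at h1
    have e : al m i + (k:ℝ) * al m i = ((k + 1 : ℕ) : ℝ) * al m i := by
      push_cast
      ring
    rwa [e] at h1

lemma interior_map {E : Type*} [TopologicalSpace E] {K : Set E} {f g : E → E}
    (hg : Continuous g) (hfg : ∀ x, g (f x) = x) (hgf : ∀ x, f (g x) = x)
    (hf : ∀ x ∈ K, f x ∈ K) {x : E} (hx : x ∈ interior K) : f x ∈ interior K := by
  have hn : K ∈ 𝓝 x := mem_interior_iff_mem_nhds.1 hx
  have hc : Filter.Tendsto g (𝓝 (f x)) (𝓝 x) := by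
    have := hg.tendsto (f x)
    rwa [hfg] at this
  have h1 : {y : E | g y ∈ K} ∈ 𝓝 (f x) := hc hn
  refine mem_interior_iff_mem_nhds.2 (Filter.mem_of_superset h1 fun y hy => ?_)
  have := hf _ hy
  rwa [hgf] at this

/-- The average of a rotation orbit vanishes in the plane. -/
lemma orbit_sum_plane (hm : ∀ i, 3 ≤ m i) (i : I) (x : Ix J I → ℝ) :
    ∑ k ∈ Finset.range (m i), rot2 (A i) (B i) ((k:ℝ) * al m i) x (A i) = 0 ∧
    ∑ k ∈ Finset.range (m i), rot2 (A i) (B i) ((k:ℝ) * al m i) x (B i) = 0 := by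
  have hab := A_ne_B (J := J) i i
  set f : ℕ → Ix J I → ℝ := fun k => rot2 (A i) (B i) ((k:ℝ) * al m i) x with hf
  have hsucc : ∀ k, rot2 (A i) (B i) (al m i) (f k) = f (k + 1) := by
    intro k
    simp only [hf]
    rw [rot2_add hab]
    congr 1
    push_cast
    ring
  have hper : f (m i) = f 0 := by
    simp only [hf]
    rw [m_mul_al hm]
    have := rot2_add_two_pi (A i) (B i) 0 x
    rw [zero_add] at this
    rw [this]
    simp
  have hcyc : ∀ g : (Ix J I → ℝ) → ℝ, ∑ k ∈ Finset.range (m i), g (f (k + 1)) =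
      ∑ k ∈ Finset.range (m i), g (f k) := by
    intro g
    have h1 := Finset.sum_range_succ (fun k => g (f k)) (m i)
    have h2 := Finset.sum_range_succ' (fun k => g (f k)) (m i)
    simp only [hper] at h1
    linarith
  set a := ∑ k ∈ Finset.range (m i), f k (A i) with ha'
  set b := ∑ k ∈ Finset.range (m i), f k (B i) with hb'
  have h1 : Real.cos (al m i) * a - Real.sin (al m i) * b = a := by
    have : ∑ k ∈ Finset.range (m i), f (k + 1) (A i) = a := hcyc (fun u => u (A i))
    refine Eq.trans ?_ this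
    rw [ha', hb', Finset.mul_sum, Finset.mul_sum, ← Finset.sum_sub_distrib]
    refine Finset.sum_congr rfl fun k _ => ?_
    rw [← hsucc, rot2_fst hab]
  have h2 : Real.sin (al m i) * a + Real.cos (al m i) * b = b := by
    have : ∑ k ∈ Finset.range (m i), f (k + 1) (B i) = b := hcyc (fun u => u (B i))
    refine Eq.trans ?_ this
    rw [ha', hb', Finset.mul_sum, Finset.mul_sum, ← Finset.sum_add_distrib]
    refine Finset.sum_congr rfl fun k _ => ?_
    rw [← hsucc, rot2_snd]
  have hS := sin_al_pos hm i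
  have hC := cos_al_lt_one hm i
  have hsq := Real.sin_sq_add_cos_sq (al m i)
  have hdet : 0 < (1 - Real.cos (al m i)) ^ 2 + Real.sin (al m i) ^ 2 := by positivity
  have ea : ((1 - Real.cos (al m i)) ^ 2 + Real.sin (al m i) ^ 2) * a = 0 := by
    linear_combination (-(1 - Real.cos (al m i))) * h1 + Real.sin (al m i) * h2
  have eb : ((1 - Real.cos (al m i)) ^ 2 + Real.sin (al m i) ^ 2) * b = 0 := by
    linear_combination (-Real.sin (al m i)) * h1 + (-(1 - Real.cos (al m i))) * h2
  exact ⟨(mul_eq_zero.1 ea).resolve_left hdet.ne', (mul_eq_zero.1 eb).resolve_left hdet.ne'⟩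

/-- The origin is an interior point. -/
lemma zero_mem_interior (hm : ∀ i, 3 ≤ m i) {K : Set (Ix J I → ℝ)} (hconv : Convex ℝ K)
    (hint : (interior K).Nonempty)
    (hflip : ∀ j, ∀ x ∈ K, flipAt (Sum.inl j) x ∈ K)
    (hrot : ∀ i, RotInv m i K) : (0 : Ix J I → ℝ) ∈ interior K := by
  have hconvi := hconv.interior
  -- remove the coordinates of `J`
  have h1 : ∀ P : Finset J, ∃ x ∈ interior K, ∀ j ∈ P, x (Sum.inl j) = 0 := by
    intro P
    induction P using Finset.induction_on with
    | empty =>
      obtain ⟨x, hx⟩ := hint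
      exact ⟨x, hx, by simp⟩
    | insert j0 P hj0 ih =>
      obtain ⟨x, hx, hx0⟩ := ih
      have hx' : flipAt (Sum.inl j0 : Ix J I) x ∈ interior K :=
        interior_map (g := flipAt (Sum.inl j0 : Ix J I)) (continuous_flipAt _)
          (flipAt_flipAt _) (flipAt_flipAt _) (hflip j0) hx
      refine ⟨(1 / 2 : ℝ) • x + (1 / 2 : ℝ) • flipAt (Sum.inl j0 : Ix J I) x,
        hconvi hx hx' (by norm_num) (by norm_num) (by norm_num), fun j hj => ?_⟩
      rcases Finset.mem_insert.1 hj with rfl | hj
      · simp [flipAt]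
      · have hne : (Sum.inl j : Ix J I) ≠ Sum.inl j0 := by
          intro e
          have : j = j0 := Sum.inl.inj e
          exact hj0 (this ▸ hj)
        simp [flipAt, update_of_ne hne, hx0 j hj]
  obtain ⟨x0, hx0, hx00⟩ := h1 Finset.univ
  -- remove the planes
  have h2 : ∀ Q : Finset I, ∃ x ∈ interior K, (∀ j, x (Sum.inl j) = 0) ∧
      ∀ i ∈ Q, x (A i) = 0 ∧ x (B i) = 0 := by
    intro Q
    induction Q using Finset.induction_on with
    | empty => exact ⟨x0, hx0, fun j => hx00 j (Finset.mem_univ j), by simp⟩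
    | insert i0 Q hi0 ih =>
      obtain ⟨x, hx, hxJ, hxQ⟩ := ih
      have hab := A_ne_B (J := J) i0 i0
      have hm0 : (0:ℝ) < m i0 := by
        have : 0 < m i0 := by linarith [hm i0]
        exact_mod_cast this
      have hmem : ∀ k ∈ Finset.range (m i0), rot2 (A i0) (B i0) ((k:ℝ) * al m i0) x ∈ interior K := by
        intro k _
        refine interior_map (g := rot2 (A i0) (B i0) (-((k:ℝ) * al m i0))) (continuous_rot2 _ _ _)
          ?_ ?_ (hrot i0 k) hx
        · intro y
          rw [rot2_add hab]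
          simp [rot2_zero hab]
        · intro y
          rw [rot2_add hab]
          simp [rot2_zero hab]
      have hcomb := hconvi.sum_mem (t := Finset.range (m i0))
        (w := fun _ => (1 / (m i0 : ℝ))) (z := fun k => rot2 (A i0) (B i0) ((k:ℝ) * al m i0) x)
        (fun _ _ => by positivity)
        (by
          rw [Finset.sum_const, Finset.card_range, nsmul_eq_mul]
          field_simp) hmem
      have hcoord : ∀ d, (∑ k ∈ Finset.range (m i0), (1 / (m i0 : ℝ)) •
          rot2 (A i0) (B i0) ((k:ℝ) * al m i0) x) d =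
          (1 / (m i0 : ℝ)) * ∑ k ∈ Finset.range (m i0), rot2 (A i0) (B i0) ((k:ℝ) * al m i0) x d := by
        intro d
        rw [Finset.sum_apply, Finset.mul_sum]
        simp
      obtain ⟨hA, hB⟩ := orbit_sum_plane hm i0 x
      refine ⟨_, hcomb, fun j => ?_, fun i hi => ?_⟩
      · rw [hcoord]
        have : ∀ k ∈ Finset.range (m i0), rot2 (A i0) (B i0) ((k:ℝ) * al m i0) x (Sum.inl j) = 0 := by
          intro k _
          rw [rot2_other (by simp [A]) (by simp [B])]
          exact hxJ j
        rw [Finset.sum_eq_zero this, mul_zero]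
      · rcases Finset.mem_insert.1 hi with rfl | hi
        · rw [hcoord, hcoord, hA, hB]
          simp
        · have hne : i ≠ i0 := fun e => hi0 (e ▸ hi)
          have e1 : (A i : Ix J I) ≠ A i0 := by simp [hne]
          have e2 : (A i : Ix J I) ≠ B i0 := A_ne_B _ _
          have e3 : (B i : Ix J I) ≠ A i0 := (A_ne_B _ _).symm
          have e4 : (B i : Ix J I) ≠ B i0 := by simp [hne]
          rw [hcoord, hcoord]
          have t1 : ∀ k ∈ Finset.range (m i0), rot2 (A i0) (B i0) ((k:ℝ) * al m i0) x (A i) = 0 := by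
            intro k _
            rw [rot2_other e1 e2]
            exact (hxQ i hi).1
          have t2 : ∀ k ∈ Finset.range (m i0), rot2 (A i0) (B i0) ((k:ℝ) * al m i0) x (B i) = 0 := by
            intro k _
            rw [rot2_other e3 e4]
            exact (hxQ i hi).2
          rw [Finset.sum_eq_zero t1, Finset.sum_eq_zero t2]
          simp
  obtain ⟨x, hx, hxJ, hxQ⟩ := h2 Finset.univ
  have : x = 0 := by
    ext d
    rcases d with j | ⟨i, b⟩
    · exact hxJ j
    · cases b
      · exact (hxQ i (Finset.mem_univ i)).1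
      · exact (hxQ i (Finset.mem_univ i)).2
  rwa [← this]

/-- Bodies satisfying the hypotheses belong to the class. -/
lemma inClass_of_body (hm : ∀ i, 3 ≤ m i) {K : Set (Ix J I → ℝ)} (hconv : Convex ℝ K)
    (hcomp : IsCompact K) (hint : (interior K).Nonempty)
    (hflip : ∀ j, ∀ x ∈ K, flipAt (Sum.inl j) x ∈ K)
    (hrot : ∀ i, ∀ x ∈ K, rot2 (A i) (B i) (al m i) x ∈ K) :
    InClass m Finset.univ K := by
  have hrot' : ∀ i, RotInv m i K := fun i => rotInv_of_fwd (hrot i)
  have h0 := zero_mem_interior hm hconv hint hflip hrot'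
  obtain ⟨ε, hε, hball⟩ := Metric.mem_nhds_iff.1 (mem_interior_iff_mem_nhds.1 h0)
  refine
    { conv := hconv
      comp := hcomp
      supp := fun _ _ d hd => absurd (Finset.mem_univ d) hd
      absorb := ⟨ε / 2, by positivity, fun x _ hx => hball ?_⟩
      shrink := ?_
      rot := fun i _ => hrot' i }
  · rw [Metric.mem_ball, dist_zero_right]
    have : ‖x‖ ≤ ε / 2 := (pi_norm_le_iff_of_nonneg (by positivity)).2 fun d => hx d
    linarith
  · intro c _ hs
    rcases hs with ⟨j, rfl⟩ | ⟨i, _, h⟩
    · refine ⟨1, one_pos, fun x hx => ?_⟩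
      have := hflip j x hx
      simpa [flipAt] using this
    · exact absurd (Finset.mem_univ _) h

/-- The theorem for bodies, with the polar body written out. -/
theorem body_ineq (hm : ∀ i, 3 ≤ m i) {K : Set (Ix J I → ℝ)} (hconv : Convex ℝ K)
    (hcomp : IsCompact K) (hint : (interior K).Nonempty)
    (hflip : ∀ j, ∀ x ∈ K, flipAt (Sum.inl j) x ∈ K)
    (hrot : ∀ i, ∀ x ∈ K, rot2 (A i) (B i) (al m i) x ∈ K) :
    CC m J / ((Fintype.card (Ix J I)).factorial : ℝ) ≤
      (volume K).toReal * (volume {y : Ix J I → ℝ | ∀ x ∈ K, dot x y ≤ 1}).toReal := by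
  have hK := inClass_of_body hm hconv hcomp hint hflip hrot
  have h := final_ineq hm hK hflip
  have hpol : Polar Finset.univ K = {y : Ix J I → ℝ | ∀ x ∈ K, dot x y ≤ 1} := by
    ext y
    constructor
    · intro hy
      exact hy.2
    · intro hy
      exact ⟨fun d hd => absurd (Finset.mem_univ d) hd, hy⟩
  rwa [hpol] at h

end Vale.Agent.Lib.P248R
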